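import Vale.Agent.P195.Gamma.ExactA.Cone
import Vale.Agent.P195.Gamma.Preserve

/-!
Families of operators in the lattices of the slots are the images of the symbols in the pieces of
the complexes at a line object.
-/

namespace Vale.Agent.P195.Gamma.ExactA

open MvPolynomial Model Symb OpFam

theorem opFam_inter : Symb.acts.Inter opActs opFam where
  Z := opFam_Z
  A := opFam_A
  Y := opFam_Y
  P := opFam_P

theorem deg_opFam {d t q : ℤ} {f : R} (hf : f ∈ S d t q) : opActs.Deg (q : ℚ) (opFam f) := by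
  refine (OpFam.deg_iff _ _).2 fun m hm => op_eq_zero hf fun e => hm ?_
  rw [← e]; push_cast; rfl

theorem mf_opFam {d t q : ℤ} {f : R} (hf : f ∈ S d t q) : MF d t (opFam f) := fun m =>
  op_mem hf m

theorem mem_S_of_opFam {d t q : ℤ} {f : R} (h : MF d t (opFam f))
    (h' : opActs.Deg (q : ℚ) (opFam f)) : f ∈ S d t q :=
  mem_S_of_op h fun m hm => (OpFam.deg_iff _ _).1 h' m fun e => hm (by exact_mod_cast e)

theorem exists_sym {d t q : ℤ} {w : OpFam} (h : MF d t w) (h' : opActs.Deg (q : ℚ) w) :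
    ∃ f ∈ S d t q, opFam f = w := by
  have hz := (OpFam.deg_iff _ _).1 h'
  rcases lt_or_ge q 0 with hq | hq
  · refine ⟨0, zero_mem _, _root_.funext fun m => ?_⟩
    rw [map_zero, hz m fun e => ?_]
    · rfl
    · have : ((m.1 + m.2 : ℕ) : ℤ) = q := by exact_mod_cast e
      omega
  · lift q to ℕ using hq
    obtain ⟨e, he⟩ := exists_coordEquiv d t q
    refine ⟨_, (e.symm fun i => ⟨w (i.1, q - i.1), h _⟩).2, _root_.funext fun ⟨a, b⟩ => ?_⟩
    rw [opFam_apply]
    by_cases hm : a + b = q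
    · have ha : a < q + 1 := by omega
      have := he (e.symm fun i => ⟨w (i.1, q - i.1), h _⟩) ⟨a, ha⟩
      rw [LinearEquiv.apply_symm_apply] at this
      rw [show b = q - a by omega]
      exact this.symm
    · rw [op_eq_zero (e.symm _).2 (fun e => hm (by exact_mod_cast e)), hz]
      simp only [Int.cast_natCast]
      exact_mod_cast hm

theorem opFam_zc (P : Fin 2 → R) : opFam (zc P) = opActs.zP fun r => opFam (P r) := by
  show opFam (zv 0 * P 0 + zv 1 * P 1) = _
  rw [map_add, opFam_Z, opFam_Z]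
  rfl

theorem mem_zc_of_opFam {d t q : ℤ} {P : Fin 2 → R} (h : MF d t (opActs.zP fun r => opFam (P r)))
    (hP : ∀ r, ∃ d' t', P r ∈ S d' t' q) : zc P ∈ S d t q := by
  refine mem_S_of_opFam (by rwa [opFam_zc]) ?_
  rw [opFam_zc]
  exact Acts.Deg.zP opActs fun r => by
    obtain ⟨d', t', hr⟩ := hP r
    exact deg_opFam hr

variable {s t : ℤ} {j : ℕ}

/-- The families of the first complex position of the symbols. -/
noncomputable def e1 (f : R) : Slot.C (j + 1) 1 → OpFam := fun _ => opFam f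

/-- The families of the second complex position of the symbols. -/
noncomputable def e2 (x : (Fin 2 → R) × (Fin 2 → R)) : Slot.C (j + 1) 2 → OpFam :=
  Sum.elim (fun l => opFam (x.1 l)) fun r => opFam (x.2 r)

/-- The families of the third complex position of the symbols. -/
noncomputable def e3 (p : Fin 2 → Fin 2 → R) : Slot.C (j + 1) 3 → OpFam := fun c =>
  opFam (p c.1 c.2)

/-- The families of the fourth complex position of the symbols. -/
noncomputable def e4 (g : R) : Slot.C (j + 1) 4 → OpFam := fun _ => opFam g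

theorem e1_lat {f : R} (hf : f ∈ M0 s t j) :
    Slot.Lat (j + 1) 1 (-s) t (e1 f) ∧ Slot.Good (j + 1) 1 (e1 f) :=
  ⟨(mf_opFam hf).congr (by ring) rfl, fun _ => deg_opFam hf⟩

theorem e2_lat {x : (Fin 2 → R) × (Fin 2 → R)} (hx : x ∈ M1 s t j) :
    Slot.Lat (j + 1) 2 (-s) t (e2 x) ∧ Slot.Good (j + 1) 2 (e2 x) := by
  refine ⟨⟨fun l => (mf_opFam (hx.1 l)).congr (by ring) rfl,
    fun r => (mf_opFam (hx.2.1 r)).congr (by ring) rfl, ?_⟩, ?_⟩
  · show MF (-s) (t + 1) (opActs.zP fun r => opFam (x.2 r))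
    rw [← opFam_zc]
    exact mf_opFam hx.2.2
  · rintro (l | r)
    · exact deg_opFam (hx.1 l)
    · exact deg_opFam (hx.2.1 r)

theorem e3_lat {p : Fin 2 → Fin 2 → R} (hp : p ∈ M2 s t j) :
    Slot.Lat (j + 1) 3 (-s) t (e3 p) ∧ Slot.Good (j + 1) 3 (e3 p) := by
  refine ⟨⟨fun l r => (mf_opFam ((hp l).1 r)).congr (by ring) rfl, fun l => ?_⟩,
    fun c => deg_opFam ((hp c.1).1 c.2)⟩
  show MF (-s) (t + 1) (opActs.zP fun r => opFam (p l r))
  rw [← opFam_zc]
  exact mf_opFam (hp l).2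

theorem e4_lat {g : R} (hg : g ∈ M3 s t j) :
    Slot.Lat (j + 1) 4 (-s) t (e4 g) ∧ Slot.Good (j + 1) 4 (e4 g) :=
  ⟨mf_opFam hg, fun _ => deg_opFam hg⟩

theorem exists_e1 {y : Slot.C (j + 1) 1 → OpFam} (h : Slot.Lat (j + 1) 1 (-s) t y)
    (h' : Slot.Good (j + 1) 1 y) : ∃ f ∈ M0 s t j, e1 f = y := by
  obtain ⟨f, hf, e⟩ := exists_sym h (h' ())
  exact ⟨f, S_cast (by ring) rfl rfl hf, _root_.funext fun _ => e⟩

theorem exists_e2 {y : Slot.C (j + 1) 2 → OpFam} (h : Slot.Lat (j + 1) 2 (-s) t y)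
    (h' : Slot.Good (j + 1) 2 y) : ∃ x ∈ M1 s t j, e2 x = y := by
  obtain ⟨h1, h2, h3⟩ := h
  choose a ha ea using fun l => exists_sym (h1 l) (h' (.inl l))
  choose b hb eb using fun r => exists_sym (h2 r) (h' (.inr r))
  refine ⟨(a, b), ⟨fun l => S_cast (by ring) rfl rfl (ha l),
    fun r => S_cast (by ring) rfl rfl (hb r), ?_⟩, _root_.funext fun c => ?_⟩
  · refine mem_zc_of_opFam ?_ fun r => ⟨_, _, hb r⟩
    rw [show (fun r => opFam (b r)) = fun r => y (.inr r) from _root_.funext eb]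
    exact h3
  · rcases c with l | r
    · exact ea l
    · exact eb r

theorem exists_e3 {y : Slot.C (j + 1) 3 → OpFam} (h : Slot.Lat (j + 1) 3 (-s) t y)
    (h' : Slot.Good (j + 1) 3 y) : ∃ p ∈ M2 s t j, e3 p = y := by
  obtain ⟨h1, h2⟩ := h
  choose a ha ea using fun l r => exists_sym (h1 l r) (h' (l, r))
  refine ⟨a, fun l => ⟨fun r => S_cast (by ring) rfl rfl (ha l r), ?_⟩,
    _root_.funext fun c => ea c.1 c.2⟩
  refine mem_zc_of_opFam ?_ fun r => ⟨_, _, ha l r⟩
  rw [show (fun r => opFam (a l r)) = fun r => y (l, r) from _root_.funext (ea l)]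
  exact h2 l

theorem exists_e4 {y : Slot.C (j + 1) 4 → OpFam} (h : Slot.Lat (j + 1) 4 (-s) t y)
    (h' : Slot.Good (j + 1) 4 y) : ∃ g ∈ M3 s t j, e4 g = y := by
  obtain ⟨f, hf, e⟩ := exists_sym h (h' ())
  exact ⟨f, hf, _root_.funext fun _ => e⟩

theorem e1_injective : Function.Injective (e1 (j := j)) := fun _ _ h =>
  opFam_injective (congrFun h ())

theorem e2_injective : Function.Injective (e2 (j := j)) := fun _ _ h =>
  Prod.ext (_root_.funext fun l => opFam_injective (congrFun h (.inl l)))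
    (_root_.funext fun r => opFam_injective (congrFun h (.inr r)))

theorem e3_injective : Function.Injective (e3 (j := j)) := fun _ _ h =>
  _root_.funext fun l => _root_.funext fun r => opFam_injective (congrFun h (l, r))

theorem e4_injective : Function.Injective (e4 (j := j)) := fun _ _ h =>
  opFam_injective (congrFun h ())

theorem dF_e2 (x : (Fin 2 → R) × (Fin 2 → R)) :
    Slot.dF (j + 1) 1 (e2 x) = e1 (Symb.acts.d1 j x) :=
  _root_.funext fun _ => (Acts.Inter.d1 Symb.acts opFam_inter j x).symm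

theorem dF_e3 (p : Fin 2 → Fin 2 → R) :
    Slot.dF (j + 1) 2 (e3 p) = e2 (Symb.acts.d2 j p) := by
  funext c
  rcases c with l | r
  · exact (Acts.Inter.d2_fst Symb.acts opFam_inter j p l).symm
  · exact (Acts.Inter.d2_snd Symb.acts opFam_inter j p r).symm

theorem dF_e4 (g : R) : Slot.dF (j + 1) 3 (e4 g) = e3 (Symb.acts.d3 j g) :=
  _root_.funext fun c => (Acts.Inter.d3 Symb.acts opFam_inter j g c.1 c.2).symm

theorem fF0_e1 (g : R) : Slot.fF0 (j + 1) 1 (e1 g) = e1 (Symb.acts.f0 j g) :=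
  _root_.funext fun _ => (Acts.Inter.f0 Symb.acts opFam_inter j g).symm

theorem fF0_e2 (x : (Fin 2 → R) × (Fin 2 → R)) :
    Slot.fF0 (j + 1) 2 (e2 x) = e2 (Symb.acts.f1 j x) := by
  funext c
  rcases c with l | r
  · exact (Acts.Inter.f1_fst Symb.acts opFam_inter j x l).symm
  · exact (Acts.Inter.f1_snd Symb.acts opFam_inter j x r).symm

theorem fF0_e3 (p : Fin 2 → Fin 2 → R) :
    Slot.fF0 (j + 1) 3 (e3 p) = e3 (Symb.acts.f2 p) :=
  _root_.funext fun c => (Acts.Inter.T Symb.acts opFam_inter (p c.1 c.2)).symm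

theorem fF0_e4 (g : R) : Slot.fF0 (j + 1) 4 (e4 g) = e4 (Symb.acts.f3 g) :=
  _root_.funext fun _ => (Acts.Inter.T Symb.acts opFam_inter g).symm

end Vale.Agent.P195.Gamma.ExactA
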