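import Vale.Agent.P195.Gamma.ExactA.Line

/-!
The cones of the comparison maps between consecutive complexes at a line object are exact.
-/

namespace Vale.Agent.P195.Gamma.ExactA

open MvPolynomial Symb

variable {s w : ℤ} {J : ℕ}

theorem f0_mem {b : R} (hb : b ∈ M0 s 0 (J + 1)) : acts.f0 J b ∈ M0 s 1 J :=
  Submodule.smul_mem _ _ (S_cast rfl (by ring) (by push_cast; ring) (T_mem hb))

theorem f3_mem {h : R} (hh : h ∈ M3 s 0 (J + 1)) : acts.f3 h ∈ M3 s 1 J :=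
  S_cast rfl (by ring) (by push_cast; ring) (T_mem hh)

theorem zc_T (P : Fin 2 → R) : zc (fun r => T (P r)) = T (zc P) := by
  simp [zc, T_apply, dy_zv_mul]; ring

theorem f2_mem_from {p : Fin 2 → Fin 2 → R} (hp : p ∈ M2 s w (J + 1)) :
    acts.f2 p ∈ M2 s (w + 1) J := by
  refine fun l => ⟨fun r => S_cast rfl (by ring) (by push_cast; ring) (T_mem ((hp l).1 r)), ?_⟩
  show zc (fun r => T (p l r)) ∈ _
  rw [zc_T]
  exact S_cast rfl (by ring) (by push_cast; ring) (T_mem (hp l).2)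

theorem f2_mem {p : Fin 2 → Fin 2 → R} (hp : p ∈ M2 s 0 (J + 1)) : acts.f2 p ∈ M2 s 1 J := by
  have := f2_mem_from hp
  rwa [zero_add] at this

theorem zc_f1_snd (y : (Fin 2 → R) × (Fin 2 → R)) : zc (acts.f1 J y).2 = T (zc y.2) := by
  simp [Acts.f1, acts_T, acts_Z, acts_P, zc, T_apply, dy_zv_mul, smul_eq_C_mul]
  ring

theorem f1_mem_from {y : (Fin 2 → R) × (Fin 2 → R)} (hy : y ∈ M1 s w (J + 1)) :
    acts.f1 J y ∈ M1 s (w + 1) J := by
  have hQ : -zc y.2 ∈ S (-s) (w + 1) (J : ℤ) :=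
    neg_mem (S_cast rfl (by ring) (by push_cast; ring) hy.2.2)
  refine ⟨fun l => ?_, fun r => ?_, ?_⟩
  · refine sub_mem (add_mem (S_cast rfl (by ring) (by push_cast; ring) (T_mem (hy.1 l)))
      (Submodule.smul_mem _ _ ?_)) (Submodule.smul_mem _ _ ?_)
    · show acts.io l (-zc y.2) ∈ _
      rw [acts_io]
      exact S_mono (by omega) (iota_mem hQ l)
    · show acts.zP (fun s => acts.io s (A l (-zc y.2))) ∈ _
      rw [acts_zP]
      simp only [acts_io]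
      show zc (iota (A l (-zc y.2))) ∈ _
      rw [zc_iota]
      exact S_cast (by ring) (by ring) (by push_cast; ring) (Delta_mul_mem (A_mem l hQ))
  · refine add_mem (S_cast rfl (by ring) (by push_cast; ring) (T_mem (hy.2.1 r)))
      (Submodule.smul_mem _ _ (sub_mem ?_ ?_))
    · exact S_cast rfl (by ring) (by push_cast; ring) (zv_mul_mem _ (dy_mem _ (hy.2.1 r)))
    · exact S_cast rfl (by ring) (by push_cast; ring) (zv_mul_mem _ (dy_mem _ (hy.2.1 (1 - r))))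
  · rw [zc_f1_snd]
    exact S_cast rfl (by ring) (by push_cast; ring) (T_mem hy.2.2)

theorem f1_mem {y : (Fin 2 → R) × (Fin 2 → R)} (hy : y ∈ M1 s 0 (J + 1)) :
    acts.f1 J y ∈ M1 s 1 J := by
  have := f1_mem_from hy
  rwa [zero_add] at this

theorem d1_f1 {y : (Fin 2 → R) × (Fin 2 → R)} (hy : y ∈ M1 s 0 (J + 1)) :
    acts.d1 J (acts.f1 J y) = acts.f0 J (acts.d1 (J + 1) y) := by
  refine (acts.f0_d1 J y (fun l => ?_) fun r => ?_).symm
  · convert acts_deg (hy.1 l) using 1; push_cast; ring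
  · convert acts_deg (hy.2.1 r) using 1; push_cast; ring

theorem d2_f2 {p : Fin 2 → Fin 2 → R} (hp : p ∈ M2 s 0 (J + 1)) :
    acts.d2 J (acts.f2 p) = acts.f1 J (acts.d2 (J + 1) p) :=
  (acts.f1_d2 J p fun l r => by simpa using acts_deg ((hp l).1 r)).symm

theorem d3_f3 {h : R} (hh : h ∈ M3 s 0 (J + 1)) :
    acts.d3 J (acts.f3 h) = acts.f2 (acts.d3 (J + 1) h) :=
  (acts.f2_d3 J h (by simpa using acts_deg hh)).symm

theorem app_f0 {b : R} (hb : b ∈ M0 s 0 (J + 1)) :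
    app (acts.f0 J b) = ((J : ℚ) + 2) • app b :=
  acts.eps_f0 acts_aug J b (by simpa using acts_deg hb)

theorem app_d1_eq_zero {j : ℕ} {t : ℤ} {x : (Fin 2 → R) × (Fin 2 → R)} (hx : x ∈ M1 s t j) :
    app (acts.d1 j x) = 0 :=
  acts.eps_d1 acts_aug j x (fun l => by simpa using acts_deg (hx.1 l))
    fun r => by simpa using acts_deg (hx.2.1 r)

theorem cone_bot (hs : s ≤ 2) {c : R} (hc : c ∈ M0 s 1 J) :
    ∃ b ∈ M0 s 0 (J + 1), ∃ x ∈ M1 s 1 J, acts.d1 J x + acts.f0 J b = c := by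
  have happ : app c ∈ Model.H (0 + ((J + 1 : ℕ) : ℤ)) := by
    have e : (2 : ℤ) - s = 2 - s := rfl
    convert app_mem hc using 2; push_cast; ring
  obtain ⟨b, hb, eb⟩ := eps_surj hs le_rfl (Submodule.smul_mem _ ((J : ℚ) + 2)⁻¹ happ)
  obtain ⟨x, hx, ex⟩ := exact0 (t := 1) (by norm_num) (sub_mem hc (f0_mem hb)) (by
    rw [map_sub, app_f0 hb, eb, smul_smul, mul_inv_cancel₀ (by positivity), one_smul, sub_self])
  exact ⟨b, hb, x, hx, by rw [ex, sub_add_cancel]⟩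

theorem cone_low {b : R} (hb : b ∈ M0 s 0 (J + 1)) {x : (Fin 2 → R) × (Fin 2 → R)}
    (hx : x ∈ M1 s 1 J) (h : acts.d1 J x + acts.f0 J b = 0) :
    ∃ y ∈ M1 s 0 (J + 1), ∃ p ∈ M2 s 1 J,
      acts.d1 (J + 1) y = b ∧ acts.d2 J p - acts.f1 J y = x := by
  have hb0 : app b = 0 := by
    have := congrArg app h
    rw [map_add, app_d1_eq_zero hx, zero_add, app_f0 hb, map_zero, smul_eq_zero] at this
    exact this.resolve_left (by positivity)
  obtain ⟨y, hy, ey⟩ := exact0 le_rfl hb hb0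
  obtain ⟨p, hp, ep⟩ := exact1 (by norm_num) (add_mem hx (f1_mem hy)) (by
    show acts.d1L J (x + _) = 0
    rw [map_add]
    show acts.d1 J x + acts.d1 J _ = 0
    rw [d1_f1 hy, ey, h])
  exact ⟨y, hy, p, hp, ey, by rw [ep, add_sub_cancel_right]⟩

theorem cone_mid {y : (Fin 2 → R) × (Fin 2 → R)} (hy : y ∈ M1 s 0 (J + 1))
    {p : Fin 2 → Fin 2 → R} (hp : p ∈ M2 s 1 J) (hy0 : acts.d1 (J + 1) y = 0)
    (h : acts.d2 J p - acts.f1 J y = 0) :
    ∃ q ∈ M2 s 0 (J + 1), ∃ g ∈ M3 s 1 J,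
      acts.d2 (J + 1) q = y ∧ acts.d3 J g + acts.f2 q = p := by
  obtain ⟨q, hq, eq⟩ := exact1 le_rfl hy hy0
  obtain ⟨g, hg, eg⟩ := exact2 (by norm_num) (sub_mem hp (f2_mem hq)) (by
    show acts.d2L J (p - _) = 0
    rw [map_sub]
    show acts.d2 J p - acts.d2 J _ = 0
    rw [d2_f2 hq, eq, h])
  exact ⟨q, hq, g, hg, eq, by rw [eg, sub_add_cancel]⟩

theorem cone_high {q : Fin 2 → Fin 2 → R} (hq : q ∈ M2 s 0 (J + 1)) {g : R}
    (hg : g ∈ M3 s 1 J) (hq0 : acts.d2 (J + 1) q = 0) (h : acts.d3 J g + acts.f2 q = 0) :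
    ∃ k ∈ M3 s 0 (J + 1), acts.d3 (J + 1) k = q ∧ -acts.f3 k = g := by
  obtain ⟨k, hk, ek⟩ := exact2 le_rfl hq hq0
  have h0 : g + acts.f3 k = 0 := exact3 (add_mem hg (f3_mem hk)) (by
    show acts.d3L J (g + _) = 0
    rw [map_add]
    show acts.d3 J g + acts.d3 J _ = 0
    rw [d3_f3 hk, ek, h])
  exact ⟨k, hk, ek, (eq_neg_of_add_eq_zero_left h0).symm⟩

theorem cone_top {k : R} (hk : k ∈ M3 s 0 (J + 1)) (h : acts.d3 (J + 1) k = 0) : k = 0 :=
  exact3 hk h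

end Vale.Agent.P195.Gamma.ExactA
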