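import Vale.Agent.P195.Gamma.ExactA.HeadPos

/-!
The head of the resolution on the levels of the linked complexes: its exactness, the kernel of the
augmentation and the cone over it.
-/

namespace Vale.Agent.P195.Gamma

open MvPolynomial Model Symb ExactA

namespace Slot

theorem obj_line : ∀ u : Fin 8, ∀ a s, obj u = Ob.line a s → a ≤ 2 ∧ s ≤ 1 ∧ (s = 1 → u = 5) := by
  intro u a s h
  fin_cases u <;> simp [obj] at h <;> (obtain ⟨rfl, rfl⟩ := h; decide)

theorem obj_pair : ∀ u : Fin 8, ∀ c, obj u = Ob.pair c → 1 ≤ c ∧ c ≤ 2 := by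
  intro u c h
  fin_cases u <;> simp [obj] at h <;> omega

theorem rows_map {X Y : Type} [AddCommGroup X] [Module ℚ X] [AddCommGroup Y] [Module ℚ Y]
    {lx : Fin 2 → X →ₗ[ℚ] X} {P : ℤ → ℤ → Submodule ℚ X} {ly : Fin 2 → Y →ₗ[ℚ] Y}
    {Q : ℤ → ℤ → Submodule ℚ Y} (G : X →ₗ[ℚ] Y) (comm : ∀ k x, G (lx k x) = ly k (G x))
    (σ : ℤ) (h : ∀ {d b x}, x ∈ P d b → G x ∈ Q d (b + σ)) {t : ℤ} (u : Ob)
    {x : Fin u.rk → X} (hx : Rows lx P t u x) :
    Rows ly Q (t + σ) u fun i => G (x i) := by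
  cases u with
  | line a s =>
    have := h hx
    rwa [sub_add_eq_add_sub] at this
  | pair c =>
    refine ⟨h hx.1, h hx.2.1, ?_⟩
    have := h hx.2.2
    rw [map_sub, comm, comm, add_right_comm] at this
    exact this

variable {J k : ℕ}

/-- The upper blocks at one vertex. -/
def upBlk (x : UpLev J k) (u : Fin 8) : Blocks (obj u) J k := fun i => (x i u).1

/-- The lower blocks at one vertex. -/
def lowBlk (x : LowLev J k) (u : Fin 8) : Blocks (obj u) J k := fun i => (x i u).1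

theorem upBlk_mem (x : UpLev J k) (u : Fin 8) (i : I J k) :
    upBlk x u i ∈ Hom 1 (obj u) (obj (g J k i)) := H1_le _ _ (x i u).2

theorem lowBlk_mem (x : LowLev J k) (u : Fin 8) (i : I J k) :
    lowBlk x u i ∈ Hom 0 (obj u) (obj (g J k i)) := H0_le _ _ (x i u).2

theorem upBlk_bot (x : UpLev J k) {u : Fin 8} (hu : ¬isA u) : upBlk x u = fun _ => 0 := by
  funext i
  exact (Submodule.mem_bot ℚ).1 ((SetLike.ext_iff.1 (H1_bot hu) _).1 (x i u).2)

theorem lowBlk_succ_bot (x : LowLev (J + 1) k) {u : Fin 8} (hu : ¬isA u) :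
    lowBlk x u = fun _ => 0 := by
  funext i
  exact (Submodule.mem_bot ℚ).1
    ((SetLike.ext_iff.1 (H0_bot hu (isA_succ J k i)) _).1 (x i u).2)

theorem up_ext {x y : UpLev J k} (h : ∀ u, upBlk x u = upBlk y u) : x = y :=
  _root_.funext fun i => _root_.funext fun u => Subtype.ext (congrFun (h u) i)

theorem low_ext {x y : LowLev J k} (h : ∀ u, lowBlk x u = lowBlk y u) : x = y :=
  _root_.funext fun i => _root_.funext fun u => Subtype.ext (congrFun (h u) i)

theorem dUp_blk (x : UpLev J (k + 1)) (u : Fin 8) :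
    upBlk (dUp J k x) u = mapBlk (dF J k) (upBlk x u) :=
  _root_.funext fun i' => dUp_apply J k x i' u

theorem dLow_blk (x : LowLev J (k + 1)) (u : Fin 8) :
    lowBlk (dLow J k x) u = mapBlk (dF J k) (lowBlk x u) :=
  _root_.funext fun i' => dLow_apply J k x i' u

theorem linkUp_blk (x : LowLev (J + 1) k) (u : Fin 8) :
    upBlk (linkUp J k x) u = mapBlk (fF J k) (lowBlk x u) :=
  _root_.funext fun i' => linkUp_apply J k x i' u

theorem fam_dF (u : Fin 8) (x : Blocks (obj u) J (k + 1)) (a : Fin (rk u)) :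
    famOf (mapBlk (dF J k) x) a = dF J k (famOf x a) :=
  famOf_mapBlk _ (leftLin_dF J k) (good_dF J k) x a

theorem fam_fF (u : Fin 8) (x : Blocks (obj u) (J + 1) k) (a : Fin (rk u)) :
    famOf (mapBlk (fF J k) x) a = fF J k (famOf x a) :=
  famOf_mapBlk _ (leftLin_fF J k) (good_fF J k) x a

theorem famOf_add {u : Ob} (x y : Blocks u J k) (a : Fin u.rk) :
    famOf (x + y) a = famOf x a + famOf y a := by
  funext c m
  simp only [famOf, Shape.enc, Pi.add_apply, Matrix.add_apply, ← Finset.sum_add_distrib]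
  exact Finset.sum_congr rfl fun p _ => by split_ifs <;> simp

/-- The cone over the head at the bottom. -/
theorem cone0_bot (c : UpLev 0 0) :
    ∃ (b : LowLev 1 0) (e : UpLev 0 1), dUp 0 0 e + linkUp 0 0 b = c := by
  have key : ∀ u : Fin 8, ∃ x : Blocks (obj u) 0 1, (∀ i, x i ∈ H1 u (g 0 1 i)) ∧
      mapBlk (dF 0 0) x = upBlk c u := by
    intro u
    by_cases hu : isA u
    swap
    · exact ⟨fun _ => 0, fun _ => zero_mem _, by rw [upBlk_bot c hu, mapBlk_zero]⟩
    obtain ⟨f, hf, ef⟩ := sym00.rows_of_blocks (upBlk_mem c u)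
    obtain ⟨p, hp, ep⟩ := Head.zc_rows zero_le_one (obj u)
      (fun a s h => by have := (obj_line u a s h).2.1; omega) (obj_pair u) hf
    obtain ⟨x, hx, ex⟩ := sym01.blocks_of_rows hp
    refine ⟨x, fun i => ?_, fam_ext fun a => ?_⟩
    · rw [H1_eq hu]; exact hx i
    · rw [fam_dF, ex, dF00_ψ, ep, ef]
  choose x hx ex using key
  refine ⟨0, fun i u => ⟨x u i, hx u i⟩, ?_⟩
  rw [map_zero, add_zero]
  exact up_ext fun u => (dUp_blk _ u).trans (ex u)

/-- The cone over the head one step up. -/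
theorem cone0_low (b : LowLev 1 0) (c : UpLev 0 1) (h : dUp 0 0 c + linkUp 0 0 b = 0) :
    ∃ (b' : LowLev 1 1) (c' : UpLev 0 2), dLow 1 0 b' = b ∧ dUp 0 1 c' + linkUp 0 1 b' = c := by
  have hc : dUp 0 0 c = 0 := by
    have : b = 0 := _root_.funext fun i => i.elim
    rwa [this, map_zero, add_zero] at h
  have key : ∀ u : Fin 8, ∃ x : Blocks (obj u) 1 1, (∀ i, x i ∈ H0 u (g 1 1 i)) ∧
      mapBlk (fF 0 1) x = upBlk c u := by
    intro u
    by_cases hu : isA u
    swap
    · exact ⟨fun _ => 0, fun _ => zero_mem _, by rw [upBlk_bot c hu, mapBlk_zero]⟩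
    obtain ⟨f, hf, ef⟩ := sym01.rows_of_blocks (upBlk_mem c u)
    have hz : ∀ a, zc (f a) = 0 := fun a => by
      have h0 : ψu (zc (f a)) = 0 := by
        rw [← dF00_ψ, ef, ← fam_dF, ← dUp_blk, hc]
        exact famOf_zero a
      exact opFam_injective ((congrFun h0 ()).trans (map_zero opFam).symm)
    obtain ⟨g', hg', eg⟩ := Head.kz_rows (obj u) hf hz
    have hg'' : Rows lz P11 0 (obj u) fun i => (-LinearMap.id : Symb.R →ₗ[ℚ] Symb.R) (g' i) := by
      have := rows_map (-LinearMap.id : Symb.R →ₗ[ℚ] Symb.R) (ly := lz) (fun k x => by simp) (-1)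
        (fun {d b x} (hx : x ∈ Head.L1 d b) =>
          (neg_mem (show x ∈ P11 d (b + -1) from hx) : -x ∈ P11 d (b + -1))) (obj u) hg'
      simpa using this
    obtain ⟨x, hx, ex⟩ := sym11.blocks_of_rows hg''
    refine ⟨x, fun i => ?_, fam_ext fun a => ?_⟩
    · rw [H0_eq (Or.inl hu)]; exact hx i
    · rw [fam_fF, ex, fF01_ψ, ← ef]
      simp [eg]
  choose x hx ex using key
  refine ⟨fun i u => ⟨x u i, hx u i⟩, 0, _root_.funext fun i => i.elim, ?_⟩
  rw [map_zero, zero_add]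
  exact up_ext fun u => (linkUp_blk _ u).trans (ex u)

/-- The cone over the head two steps up. -/
theorem cone0_high0 (b : LowLev 1 1) (c : UpLev 0 2) (h : dUp 0 1 c + linkUp 0 1 b = 0) :
    ∃ (b' : LowLev 1 2) (c' : UpLev 0 3), dLow 1 1 b' = b ∧ dUp 0 2 c' + linkUp 0 2 b' = c := by
  have key : ∀ u : Fin 8, ∃ (x : Blocks (obj u) 1 2) (w : Blocks (obj u) 0 3),
      (∀ i, x i ∈ H0 u (g 1 2 i)) ∧ (∀ i, w i ∈ H1 u (g 0 3 i)) ∧
      mapBlk (dF 1 1) x = lowBlk b u ∧
      mapBlk (dF 0 2) w + mapBlk (fF 0 2) x = upBlk c u := by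
    intro u
    by_cases hu : isA u
    swap
    · exact ⟨fun _ => 0, fun _ => 0, fun _ => zero_mem _, fun _ => zero_mem _,
        by rw [lowBlk_succ_bot b hu, mapBlk_zero],
        by rw [upBlk_bot c hu, mapBlk_zero, mapBlk_zero]; funext i; exact add_zero _⟩
    obtain ⟨f, hf, ef⟩ := sym02.rows_of_blocks (upBlk_mem c u)
    obtain ⟨e, he, ee⟩ := sym11.rows_of_blocks (lowBlk_mem b u)
    obtain ⟨p, hp, ep⟩ := Head.lift2_rows le_rfl (obj u) (fun a s hs => by
      have h1 := (obj_line u a s hs).2.1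
      rcases Nat.eq_zero_or_pos s with h0 | h0
      · omega
      · exact absurd ((obj_line u a s hs).2.2 (by omega) ▸ hu) (by decide)) hf
    -- the cycle condition identifies the lower entry
    have hcyc : ∀ a, e a = Head.curl (f a) := fun a => by
      have h1 := congrArg (fun z : UpLev 0 1 => famOf (upBlk z u) a) h
      have h2 : famOf (upBlk (0 : UpLev 0 1) u) a = 0 := famOf_zero a
      have h3 : upBlk (dUp 0 1 c + linkUp 0 1 b) u =
          upBlk (dUp 0 1 c) u + upBlk (linkUp 0 1 b) u := rfl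
      have e1 : famOf (upBlk (dUp 0 1 c) u) a = dF 0 1 (ψp (f a)) :=
        ((congrArg (famOf · a) (dUp_blk c u)).trans (fam_dF u _ a)).trans (by rw [ef])
      have e2 : famOf (upBlk (linkUp 0 1 b) u) a = fF 0 1 (ψu (e a)) :=
        ((congrArg (famOf · a) (linkUp_blk b u)).trans (fam_fF u _ a)).trans (by rw [ee])
      replace h1 : dF 0 1 (ψp (f a)) + fF 0 1 (ψu (e a)) = 0 := by
        rw [← e1, ← e2]
        exact ((famOf_add (upBlk (dUp 0 1 c) u) (upBlk (linkUp 0 1 b) u) a).symm.trans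
          ((congrArg (famOf · a) h3).symm.trans h1)).trans h2
      rw [dF01_ψ, fF01_ψ, map_neg, ← sub_eq_add_neg, sub_eq_zero] at h1
      exact (Head.kz_injective (ψp_injective h1)).symm
    have hh : Rows (lzPi (Fin 2)) P12 0 (obj u)
        fun i => LinearMap.fst ℚ (Fin 2 → Symb.R) Symb.R (p i) := by
      have := rows_map (LinearMap.fst ℚ (Fin 2 → Symb.R) Symb.R) (ly := lzPi (Fin 2)) (Q := P12)
        (fun k x => rfl) (-1) (fun {d b x} hx => mem_P12.2 fun l => (Head.mem_L2.1 hx).1 l)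
        (obj u) hp
      simpa using this
    have hw : Rows lz Head.K0 1 (obj u)
        fun i => LinearMap.snd ℚ (Fin 2 → Symb.R) Symb.R (p i) := by
      have := rows_map (LinearMap.snd ℚ (Fin 2 → Symb.R) Symb.R) (ly := lz) (Q := Head.K0)
        (fun k x => rfl) 0 (fun {d b x} hx => by
          rw [add_zero]
          exact (Head.mem_L2.1 hx).2) (obj u) hp
      simpa using this
    obtain ⟨x, hx, ex⟩ := sym12.blocks_of_rows hh
    obtain ⟨w, hw', ew⟩ := sym03.blocks_of_rows hw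
    have hdeg : ∀ a l, opActs.Deg 1 (opFam ((p a).1 l)) := fun a l => by
      have := good_enc 1 2 (fun i => x i a) (.inl l)
      rw [show (shape 1 2).enc (fun i => x i a) = ψl (p a).1 from ex a] at this
      exact deg_of_eq this (by simp [q])
    refine ⟨x, w, fun i => ?_, fun i => ?_, fam_ext fun a => ?_, fam_ext fun a => ?_⟩
    · rw [H0_eq (Or.inl hu)]; exact hx i
    · rw [H1_eq hu]; exact hw' i
    · rw [fam_dF, ex, ← ee, hcyc, ← ep]
      show dF 1 1 (ψl (p a).1) = _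
      rw [dF11_ψ _ (hdeg a)]
      congr 1
      show Head.curl _ = Head.curl _
      rw [show Head.lift2 (p a) = (fun l => T ((p a).1 l)) + Head.hd3 (p a).2 from
        _root_.funext fun l => Head.lift2_apply (p a) l, map_add, Head.curl_hd3, add_zero]
    · rw [famOf_add, fam_dF, fam_fF, ex, ew, ← ef, ← ep]
      show dF 0 2 (ψu (p a).2) + fF 0 2 (ψl (p a).1) = _
      rw [dF02_ψ, fF02_ψ, ← map_add]
      congr 1
      funext l
      rw [Pi.add_apply, Head.lift2_apply, Head.hd3_apply, add_comm]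
  choose x w hx hw e1 e2 using key
  refine ⟨fun i u => ⟨x u i, hx u i⟩, fun i u => ⟨w u i, hw u i⟩,
    low_ext fun u => (dLow_blk _ u).trans (e1 u), up_ext fun u => ?_⟩
  show upBlk (dUp 0 2 _) u + upBlk (linkUp 0 2 _) u = _
  rw [dUp_blk, linkUp_blk]
  exact e2 u

theorem dUp02_injective : Function.Injective (dUp 0 2) := by
  refine (injective_iff_map_eq_zero _).2 fun c hc => up_ext fun u => ?_
  obtain ⟨f, hf, ef⟩ := sym03.rows_of_blocks (upBlk_mem c u)
  refine fam_ext fun a => ?_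
  have h1 : ψp (Head.hd3 (f a)) = 0 := by
    rw [← dF02_ψ, ef, ← fam_dF, ← dUp_blk, hc]
    exact famOf_zero a
  have h2 : f a = 0 := Head.hd3_injective
    ((ψp_injective (h1.trans (map_zero ψp).symm)).trans (map_zero Head.hd3).symm)
  rw [← ef, h2, map_zero]
  exact (famOf_zero a).symm

/-- The cone over the head further up, from exactness of the first complex. -/
theorem cone0_high (h1 : ∀ b : LowLev 1 2, dLow 1 1 b = 0 → ∃ b', dLow 1 2 b' = b)
    (h2 : ∀ b : LowLev 1 3, dLow 1 2 b = 0 → ∃ b', dLow 1 3 b' = b)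
    (h3 : ∀ b : LowLev 1 4, dLow 1 3 b = 0 → b = 0) :
    ∀ (k : ℕ) (b : LowLev 1 (k + 1)) (c : UpLev 0 (k + 2)), dLow 1 k b = 0 →
      dUp 0 (k + 1) c + linkUp 0 (k + 1) b = 0 → ∃ (b' : LowLev 1 (k + 2)) (c' : UpLev 0 (k + 3)),
        dLow 1 (k + 1) b' = b ∧ dUp 0 (k + 2) c' + linkUp 0 (k + 2) b' = c
  | 0, b, c, _, hc => cone0_high0 b c hc
  | 1, b, c, hb, hc => by
    obtain ⟨b', hb'⟩ := h1 b hb
    refine ⟨b', 0, hb', ?_⟩
    rw [map_zero, zero_add]
    refine dUp02_injective ?_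
    have e := twist.dX_φ 0 2 b'
    change dUp 0 2 (linkUp 0 3 b') + linkUp 0 2 (dLow 1 2 b') = 0 at e
    rw [hb'] at e
    exact (eq_neg_of_add_eq_zero_left e).trans (eq_neg_of_add_eq_zero_left hc).symm
  | 2, b, c, hb, _ => by
    obtain ⟨b', hb'⟩ := h2 b hb
    exact ⟨b', 0, hb', _root_.funext fun i => i.elim⟩
  | 3, b, c, hb, _ => by
    refine ⟨0, 0, ?_, _root_.funext fun i => i.elim⟩
    rw [map_zero, h3 b hb]
  | k + 4, b, c, _, _ =>
    ⟨0, 0, _root_.funext fun i => i.elim, _root_.funext fun i => i.elim⟩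

theorem row0_mem {k : ℕ} {u : Fin 8} {x : Blocks (obj u) 0 k}
    (hx : ∀ i, x i ∈ Hom 0 (obj u) (obj (g 0 k i))) (i : I 0 k) : x i ∈ H0 u (g 0 k i) := by
  rw [H0_eq (Or.inr (not_isA_zero k i))]
  exact hx i

/-- The head is exact above its bottom on the lower level. -/
theorem head_row : ∀ (k : ℕ) (a : LowLev 0 (k + 1)), dLow 0 k a = 0 →
    ∃ a' : LowLev 0 (k + 2), dLow 0 (k + 1) a' = a
  | 0, a, ha => by
    have key : ∀ u : Fin 8, ∃ x : Blocks (obj u) 0 2,
        (∀ i, x i ∈ Hom 0 (obj u) (obj (g 0 2 i))) ∧ mapBlk (dF 0 1) x = lowBlk a u := by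
      intro u
      obtain ⟨f, hf, ef⟩ := sym01.rows_of_blocks (lowBlk_mem a u)
      have hz : ∀ i, zc (f i) = 0 := fun i => by
        have h0 : ψu (zc (f i)) = 0 := by
          rw [← dF00_ψ, ef, ← fam_dF, ← dLow_blk, ha]
          exact famOf_zero i
        exact opFam_injective ((congrFun h0 ()).trans (map_zero opFam).symm)
      obtain ⟨y, hy, ey⟩ := Head.exact1 le_rfl (obj u) hf hz
      obtain ⟨x, hx, ex⟩ := sym02.blocks_of_rows hy
      exact ⟨x, hx, fam_ext fun i => by rw [fam_dF, ex, dF01_ψ, ey, ef]⟩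
    choose x hx ex using key
    exact ⟨fun i u => ⟨x u i, row0_mem (hx u) i⟩, low_ext fun u => (dLow_blk _ u).trans (ex u)⟩
  | 1, a, ha => by
    have key : ∀ u : Fin 8, ∃ x : Blocks (obj u) 0 3,
        (∀ i, x i ∈ Hom 0 (obj u) (obj (g 0 3 i))) ∧ mapBlk (dF 0 2) x = lowBlk a u := by
      intro u
      obtain ⟨f, hf, ef⟩ := sym02.rows_of_blocks (lowBlk_mem a u)
      have hz : ∀ i, Head.kz (Head.curl (f i)) = 0 := fun i => by
        refine ψp_injective (((dF01_ψ (f i)).symm.trans ?_).trans (map_zero ψp).symm)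
        rw [ef, ← fam_dF, ← dLow_blk, ha]
        exact famOf_zero i
      obtain ⟨y, hy, ey⟩ := Head.exact2 (obj u) hf hz
      obtain ⟨x, hx, ex⟩ := sym03.blocks_of_rows hy
      exact ⟨x, hx, fam_ext fun i => by rw [fam_dF, ex, dF02_ψ, ey, ef]⟩
    choose x hx ex using key
    exact ⟨fun i u => ⟨x u i, row0_mem (hx u) i⟩, low_ext fun u => (dLow_blk _ u).trans (ex u)⟩
  | 2, a, ha => by
    refine ⟨0, ?_⟩
    rw [map_zero]
    refine (low_ext fun u => fam_ext fun i => ?_).symm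
    obtain ⟨f, hf, ef⟩ := sym03.rows_of_blocks (lowBlk_mem a u)
    have h1 : ψp (Head.hd3 (f i)) = 0 := by
      rw [← dF02_ψ, ef, ← fam_dF, ← dLow_blk, ha]
      exact famOf_zero i
    have h2 : f i = 0 := Head.hd3_injective
      ((ψp_injective (h1.trans (map_zero ψp).symm)).trans (map_zero Head.hd3).symm)
    rw [← ef, h2, map_zero]
    exact (famOf_zero i).symm
  | k + 3, a, _ => ⟨0, _root_.funext fun i => i.elim⟩

/-- The kernel of the augmentation at the bottom of the head. -/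
theorem head_ker (a : LowLev 0 0)
    (ha : scalarOf ((a () om).1 (0 : Fin 1) (0 : Fin 1)) = 0) :
    ∃ b : LowLev 0 1, dLow 0 0 b = a := by
  have key : ∀ u : Fin 8, ∃ x : Blocks (obj u) 0 1,
      (∀ i, x i ∈ Hom 0 (obj u) (obj (g 0 1 i))) ∧ mapBlk (dF 0 0) x = lowBlk a u := by
    intro u
    by_cases hu : u = om
    · refine ⟨fun _ => 0, fun _ => zero_mem _, ?_⟩
      subst hu
      rw [mapBlk_zero]
      funext i
      refine Matrix.ext fun s r => ?_
      obtain ⟨c, hc⟩ := om_om_scalar (a () om).2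
      have hs : s = (0 : Fin 1) := Subsingleton.elim (α := Fin 1) _ _
      have hr : r = (0 : Fin 1) := Subsingleton.elim (α := Fin 1) _ _
      subst hs hr
      rw [hc, scalarOf_algebraMap] at ha
      show (0 : D) = (a () om).1 (0 : Fin 1) (0 : Fin 1)
      rw [hc, ha, map_zero]
    obtain ⟨f, hf, ef⟩ := sym00.rows_of_blocks (lowBlk_mem a u)
    obtain ⟨p, hp, ep⟩ := Head.zc_rows le_rfl (obj u) (fun a' s h => by
      have h1 := (obj_line u a' s h).2.1
      rcases Nat.eq_zero_or_pos s with h0 | h0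
      · omega
      · exact absurd ((obj_line u a' s h).2.2 (by omega)) hu) (obj_pair u) hf
    obtain ⟨x, hx, ex⟩ := sym01.blocks_of_rows hp
    exact ⟨x, hx, fam_ext fun i => by rw [fam_dF, ex, dF00_ψ, ep, ef]⟩
  choose x hx ex using key
  exact ⟨fun i u => ⟨x u i, row0_mem (hx u) i⟩, low_ext fun u => (dLow_blk _ u).trans (ex u)⟩

end Slot

end Vale.Agent.P195.Gamma
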