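import Vale.Agent.P195.Gamma.ExactA.ExactAll
import Vale.Agent.P195.Gamma.ExactA.HeadTwist
import Vale.Agent.P195.Gamma.Assembly

/-!
All the cones of the linked complexes are exact, and the kernel of the augmentation is the image of
the first differential.
-/

namespace Vale.Agent.P195.Gamma.ExactA

open Model Matrix Symb

theorem row_exact1 {u : Ob} (hu : Av u) {Y : Fin u.rk → (Fin 2 → R) × (Fin 2 → R)} {j : ℕ}
    (hY : Q1 0 j u Y) (h : ∀ i, Symb.acts.d1 j (Y i) = 0) :
    ∃ Q, Q2 0 j u Q ∧ ∀ i, Symb.acts.d2 j (Q i) = Y i := by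
  rcases hu with ⟨a, -, rfl⟩ | ⟨c, -, rfl⟩
  · obtain ⟨q, hq, e⟩ := exact1 (s := (a : ℤ)) le_rfl hY (h (0 : Fin 1))
    exact ⟨fun _ => q, hq, fun i => by
      rw [show i = (0 : Fin 1) from Subsingleton.elim (α := Fin 1) _ _]; exact e⟩
  · obtain ⟨U, hU, hψ, e⟩ := pair_exact1 (c := (c : ℤ)) (by omega) le_rfl Y hY.1 hY.2 h
    exact ⟨U, ⟨hU, hψ⟩, e⟩

theorem row_exact2 {u : Ob} (hu : Av u) {Q : Fin u.rk → Fin 2 → Fin 2 → R} {j : ℕ}
    (hQ : Q2 0 j u Q) (h : ∀ i, Symb.acts.d2 j (Q i) = 0) :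
    ∃ K, Q3 0 j u K ∧ ∀ i, Symb.acts.d3 j (K i) = Q i := by
  rcases hu with ⟨a, -, rfl⟩ | ⟨c, -, rfl⟩
  · obtain ⟨k, hk, e⟩ := exact2 (s := (a : ℤ)) le_rfl hQ (h (0 : Fin 1))
    exact ⟨fun _ => k, hk, fun i => by
      rw [show i = (0 : Fin 1) from Subsingleton.elim (α := Fin 1) _ _]; exact e⟩
  · obtain ⟨U, hU, hψ, e⟩ := pair_exact2 (c := (c : ℤ)) (by omega) le_rfl Q hQ.1 hQ.2 h
    exact ⟨U, ⟨hU, hψ⟩, e⟩

theorem row_exact3 {u : Ob} (hu : Av u) {K : Fin u.rk → R} {j : ℕ} (hK : Q3 0 j u K)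
    (h : ∀ i, Symb.acts.d3 j (K i) = 0) : K = 0 := by
  rcases hu with ⟨a, -, rfl⟩ | ⟨c, -, rfl⟩
  · funext i
    rw [show i = (0 : Fin 1) from Subsingleton.elim (α := Fin 1) _ _]
    exact exact3 (s := (a : ℤ)) hK (h (0 : Fin 1))
  · funext i
    exact exact3 (hK.1 i) (h i)

theorem first_exact1 (b : Slot.LowLev 1 2) (hb : Slot.dLow 1 1 b = 0) :
    ∃ b', Slot.dLow 1 2 b' = b := by
  choose Y hY eY using fun u hu => (corr2 0).exists_on (famOn_low b hu (u := u))
  have h0 : ∀ u hu a, Symb.acts.d1 0 (Y u hu a) = 0 := fun u hu a => by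
    refine (corr1 0).eq_zero ?_
    rw [← dF_e2, eY]
    have := congrArg (fun x => famLow x u a) hb
    simp only [famLow_zero] at this
    rwa [fam_dLow] at this
  choose Q hQ eQ using fun u hu => row_exact1 (av_obj u hu) (hY u hu) (h0 u hu)
  obtain ⟨b', hb'⟩ := exists_low (fun u hu a => e3 (j := 0) (Q u hu a)) fun u hu =>
    (corr3 0).famOn (hQ u hu)
  refine ⟨b', low_ext fun u hu => _root_.funext fun a => ?_⟩
  rw [fam_dLow, hb' u hu]
  dsimp only
  rw [dF_e3, eQ u hu a, eY]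

theorem first_exact2 (b : Slot.LowLev 1 3) (hb : Slot.dLow 1 2 b = 0) :
    ∃ b', Slot.dLow 1 3 b' = b := by
  choose Y hY eY using fun u hu => (corr3 0).exists_on (famOn_low b hu (u := u))
  have h0 : ∀ u hu a, Symb.acts.d2 0 (Y u hu a) = 0 := fun u hu a => by
    refine (corr2 0).eq_zero ?_
    rw [← dF_e3, eY]
    have := congrArg (fun x => famLow x u a) hb
    simp only [famLow_zero] at this
    rwa [fam_dLow] at this
  choose Q hQ eQ using fun u hu => row_exact2 (av_obj u hu) (hY u hu) (h0 u hu)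
  obtain ⟨b', hb'⟩ := exists_low (fun u hu a => e4 (j := 0) (Q u hu a)) fun u hu =>
    (corr4 0).famOn (hQ u hu)
  refine ⟨b', low_ext fun u hu => _root_.funext fun a => ?_⟩
  rw [fam_dLow, hb' u hu]
  dsimp only
  rw [dF_e4, eQ u hu a, eY]

theorem first_exact3 (b : Slot.LowLev 1 4) (hb : Slot.dLow 1 3 b = 0) : b = 0 := by
  refine low_ext fun u hu => _root_.funext fun a => ?_
  obtain ⟨K, hK, eK⟩ := (corr4 0).exists_on (famOn_low b hu (u := u))
  have h0 : ∀ i, Symb.acts.d3 0 (K i) = 0 := fun i => by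
    refine (corr3 0).eq_zero ?_
    rw [← dF_e4, eK]
    have := congrArg (fun x => famLow x u i) hb
    simp only [famLow_zero] at this
    rwa [fam_dLow] at this
  rw [famLow_zero, ← eK a, row_exact3 (av_obj u hu) hK h0, Pi.zero_apply, (corr4 0).zero]

/-- All cones of the linked complexes are exact. -/
theorem coneExact : Total.ConeExact twist.dK twist.dX twist.φ where
  bot
    | 0, c => Slot.cone0_bot c
    | j + 1, c => all_bot j c
  low
    | 0, b, c, h => Slot.cone0_low b c h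
    | j + 1, b, c, _ => all_low j b c
  high
    | 0, k, b, c, hb, h => Slot.cone0_high first_exact1 first_exact2 first_exact3 k b c hb h
    | j + 1, k, b, c, hb, h => all_high j k b c hb h
  row := Slot.head_row

/-- The kernel of the augmentation is the image of the first differential. -/
theorem augKer : ∀ x, eps00K x = 0 → ∃ y, twist.dK 0 0 y = x :=
  fun x hx => Slot.head_ker x hx

end Vale.Agent.P195.Gamma.ExactA
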