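import Vale.Agent.P195.Gamma.ExactA.Rows
import Vale.Agent.P195.Gamma.Instance

/-!
The cones over the complexes of positive number are exact on the levels of the linked complexes.
-/

namespace Vale.Agent.P195.Gamma.ExactA

open Model Matrix Symb

/-- The families of the rows of block matrices out of an object. -/
noncomputable def fam {J k : ℕ} {w : Ob}
    (T : ∀ i : Slot.I J k, Matrix (Fin w.rk) (Fin (rk (Slot.g J k i))) D) :
    Fin w.rk → Slot.C J k → OpFam :=
  fun a => (Slot.shape J k).enc fun i s => T i a s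

theorem enc_comb {J k : ℕ} (a b : D) (x y : Shape.Row (Slot.g J k)) :
    (Slot.shape J k).enc (a • x - b • y) =
      a • (Slot.shape J k).enc x - b • (Slot.shape J k).enc y := by
  funext c m
  show _ = a * (Slot.shape J k).enc x c m - b * (Slot.shape J k).enc y c m
  simp only [Shape.enc, Finset.mul_sum, ← Finset.sum_sub_distrib]
  refine Finset.sum_congr rfl fun p _ => ?_
  split_ifs
  · rfl
  · simp

theorem famOn_of_mem {J k : ℕ} {t : ℤ} {w : Ob} (hw : Av w)
    (T : ∀ i : Slot.I J k, Matrix (Fin w.rk) (Fin (rk (Slot.g J k i))) D)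
    (hT : ∀ i, T i ∈ Hom t w (obj (Slot.g J k i))) : FamOn t J k w (fam T) := by
  have hlat : ∀ (d b : ℤ) (r : Shape.Row (Slot.g J k)),
      (∀ i, r i ∈ (obj (Slot.g J k i)).M d b) →
      Slot.Lat J k d b ((Slot.shape J k).enc r) := fun d b r hr =>
    Slot.lat_of_dec J k d b _ (Slot.good_enc J k r) fun i => by
      rw [Shape.dec_enc]; exact hr i
  rcases hw with ⟨a, -, rfl⟩ | ⟨c, -, rfl⟩
  · refine ⟨Slot.good_enc J k _, hlat _ _ _ fun i => ?_⟩
    simpa using mem_Hom_line.1 (hT i)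
  · refine ⟨fun r => ⟨Slot.good_enc J k _, hlat _ _ _ fun i => ?_⟩, ?_⟩
    · fin_cases r
      · exact (mem_Hom_pair.1 (hT i)).1
      · exact (mem_Hom_pair.1 (hT i)).2.1
    · show Slot.Lat J k (-c) (t + 1) (mlt (MvPolynomial.X 1) • (Slot.shape J k).enc
        (fun i s => T i (0 : Fin 2) s) - mlt (MvPolynomial.X 0) • (Slot.shape J k).enc
        (fun i s => T i (1 : Fin 2) s))
      rw [← enc_comb]
      refine hlat _ _ _ fun i => ?_
      rw [add_comm]
      exact (mem_Hom_pair.1 (hT i)).2.2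

theorem mem_of_famOn {J k : ℕ} {t : ℤ} {w : Ob} (hw : Av w) {Y : Fin w.rk → Slot.C J k → OpFam}
    (hY : FamOn t J k w Y) :
    ∃ T : ∀ i : Slot.I J k, Matrix (Fin w.rk) (Fin (rk (Slot.g J k i))) D,
      (∀ i, T i ∈ Hom t w (obj (Slot.g J k i))) ∧ fam T = Y := by
  have hg : ∀ a, Slot.Good J k (Y a) := by
    rcases hw with ⟨a, -, rfl⟩ | ⟨c, -, rfl⟩
    · intro a
      rw [show a = (0 : Fin 1) from Subsingleton.elim (α := Fin 1) _ _]
      exact hY.1
    · exact fun a => (hY.1 a).1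
  refine ⟨fun i => Matrix.of fun a s => (Slot.shape J k).dec (Y a) i s, fun i => ?_,
    _root_.funext fun a => Slot.enc_dec J k _ (hg a)⟩
  rcases hw with ⟨a, -, rfl⟩ | ⟨c, -, rfl⟩
  · refine mem_Hom_line.2 ?_
    rw [Nat.cast_zero, sub_zero]
    exact Slot.dec_of_lat J k _ _ _ hY.2 i
  · refine mem_Hom_pair.2 ⟨Slot.dec_of_lat J k _ _ _ (hY.1 (0 : Fin 2)).2 i,
      Slot.dec_of_lat J k _ _ _ (hY.1 (1 : Fin 2)).2 i, ?_⟩
    rw [add_comm]
    exact Slot.dec_of_lat J k _ _ _ hY.2 i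

/-- The families of a lower level at a vertex. -/
noncomputable def famLow {J k : ℕ} (x : Slot.LowLev J k) (u : Fin 8) :
    Fin (rk u) → Slot.C J k → OpFam := fam fun i => (x i u).1

/-- The families of an upper level at a vertex. -/
noncomputable def famUp {J k : ℕ} (x : Slot.UpLev J k) (u : Fin 8) :
    Fin (rk u) → Slot.C J k → OpFam := fam fun i => (x i u).1

theorem fam_injective {J k : ℕ} {w : Ob}
    {T T' : ∀ i : Slot.I J k, Matrix (Fin w.rk) (Fin (rk (Slot.g J k i))) D}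
    (h : fam T = fam T') : T = T' := by
  funext i a s
  have := congrArg (fun y => (Slot.shape J k).dec y i s) (congrFun h a)
  simpa [fam, Shape.dec_enc] using this

theorem fam_add {J k : ℕ} {w : Ob}
    (T T' : ∀ i : Slot.I J k, Matrix (Fin w.rk) (Fin (rk (Slot.g J k i))) D) (a : Fin w.rk) :
    fam (fun i => T i + T' i) a = fam T a + fam T' a := by
  funext c m
  show _ = fam T a c m + fam T' a c m
  simp only [fam, Shape.enc, ← Finset.sum_add_distrib]
  refine Finset.sum_congr rfl fun p _ => ?_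
  split_ifs
  · rfl
  · simp

theorem fam_dLow {J k : ℕ} (x : Slot.LowLev J (k + 1)) (u : Fin 8) (a : Fin (rk u)) :
    famLow (Slot.dLow J k x) u a = Slot.dF J k (famLow x u a) := by
  show (Slot.shape J k).enc (Slot.rowOf (fun i => (Slot.dLow J k x i u).1) a) = _
  simp only [Slot.dLow_apply]
  rw [Slot.row_sum (Slot.dF J k) (Slot.leftLin_dF J k),
    Slot.enc_dec J k _ (Slot.good_dF J k _ (Slot.good_enc J (k + 1) _))]
  rfl

theorem fam_dUp {J k : ℕ} (x : Slot.UpLev J (k + 1)) (u : Fin 8) (a : Fin (rk u)) :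
    famUp (Slot.dUp J k x) u a = Slot.dF J k (famUp x u a) := by
  show (Slot.shape J k).enc (Slot.rowOf (fun i => (Slot.dUp J k x i u).1) a) = _
  simp only [Slot.dUp_apply]
  rw [Slot.row_sum (Slot.dF J k) (Slot.leftLin_dF J k),
    Slot.enc_dec J k _ (Slot.good_dF J k _ (Slot.good_enc J (k + 1) _))]
  rfl

theorem fam_linkUp {J k : ℕ} (x : Slot.LowLev (J + 1) k) (u : Fin 8) (a : Fin (rk u)) :
    famUp (Slot.linkUp J k x) u a = Slot.fF J k (famLow x u a) := by
  show (Slot.shape J k).enc (Slot.rowOf (fun i => (Slot.linkUp J k x i u).1) a) = _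
  simp only [Slot.linkUp_apply]
  rw [Slot.row_sum (Slot.fF J k) (Slot.leftLin_fF J k),
    Slot.enc_dec J k _ (Slot.good_fF J k _ (Slot.good_enc (J + 1) k _))]
  rfl

theorem famUp_add {J k : ℕ} (x y : Slot.UpLev J k) (u : Fin 8) (a : Fin (rk u)) :
    famUp (x + y) u a = famUp x u a + famUp y u a :=
  fam_add (fun i => (x i u).1) (fun i => (y i u).1) a

theorem famUp_zero {J k : ℕ} (u : Fin 8) (a : Fin (rk u)) :
    famUp (0 : Slot.UpLev J k) u a = 0 := by
  have := famUp_add (0 : Slot.UpLev J k) 0 u a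
  rwa [add_zero, left_eq_add] at this

theorem famLow_zero {J k : ℕ} (u : Fin 8) (a : Fin (rk u)) :
    famLow (0 : Slot.LowLev J k) u a = 0 := by
  funext c m
  simp [famLow, fam, Shape.enc]

theorem low_ext {J k : ℕ} {x y : Slot.LowLev (J + 1) k}
    (h : ∀ u, isA u → famLow x u = famLow y u) : x = y := by
  funext i u
  by_cases hu : isA u
  · exact Subtype.ext (congrFun (fam_injective (h u hu)) i)
  · have h0 : ∀ z : H0 u (Slot.g (J + 1) k i), z.1 = 0 := fun z => by
      have hz := z.2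
      simp only [H0_bot hu (Slot.isA_succ J k i), Submodule.mem_bot] at hz
      exact hz
    exact Subtype.ext ((h0 _).trans (h0 _).symm)

theorem up_ext {J k : ℕ} {x y : Slot.UpLev J k} (h : ∀ u, isA u → famUp x u = famUp y u) :
    x = y := by
  funext i u
  by_cases hu : isA u
  · exact Subtype.ext (congrFun (fam_injective (h u hu)) i)
  · have h0 : ∀ z : H1 u (Slot.g J k i), z.1 = 0 := fun z => by
      have hz := z.2
      simp only [H1_bot hu, Submodule.mem_bot] at hz
      exact hz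
    exact Subtype.ext ((h0 _).trans (h0 _).symm)

theorem famOn_low {J k : ℕ} (x : Slot.LowLev J k) {u : Fin 8} (hu : isA u) :
    FamOn 0 J k (obj u) (famLow x u) :=
  famOn_of_mem (av_obj u hu) _ fun i => H0_le _ _ (x i u).2

theorem famOn_up {J k : ℕ} (x : Slot.UpLev J k) {u : Fin 8} (hu : isA u) :
    FamOn 1 J k (obj u) (famUp x u) :=
  famOn_of_mem (av_obj u hu) _ fun i => H1_le _ _ (x i u).2

theorem exists_low {J k : ℕ} (Y : ∀ u : Fin 8, isA u → Fin (rk u) → Slot.C J k → OpFam)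
    (hY : ∀ u hu, FamOn 0 J k (obj u) (Y u hu)) :
    ∃ x : Slot.LowLev J k, ∀ u hu, famLow x u = Y u hu := by
  choose T hT eT using fun u hu => mem_of_famOn (av_obj u hu) (hY u hu)
  refine ⟨fun i u => if hu : isA u then ⟨T u hu i, ?_⟩ else 0, fun u hu => ?_⟩
  · rw [H0_eq (Or.inl hu)]
    exact hT u hu i
  · rw [← eT u hu, famLow]
    congr 1
    funext i
    simp [dif_pos hu]

theorem exists_up {J k : ℕ} (Y : ∀ u : Fin 8, isA u → Fin (rk u) → Slot.C J k → OpFam)
    (hY : ∀ u hu, FamOn 1 J k (obj u) (Y u hu)) :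
    ∃ x : Slot.UpLev J k, ∀ u hu, famUp x u = Y u hu := by
  choose T hT eT using fun u hu => mem_of_famOn (av_obj u hu) (hY u hu)
  refine ⟨fun i u => if hu : isA u then ⟨T u hu i, ?_⟩ else 0, fun u hu => ?_⟩
  · rw [H1_eq hu]
    exact hT u hu i
  · rw [← eT u hu, famUp]
    congr 1
    funext i
    simp [dif_pos hu]

section

variable {X : Type} [AddCommGroup X] [Module ℚ X] {J k : ℕ} {M : ℤ → ℤ → Submodule ℚ X}
  {L : Fin 2 → X →ₗ[ℚ] X} {e : X → Slot.C J k → OpFam}

theorem Corr.zero (C : Corr J k M L e) : e 0 = 0 := by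
  simpa using C.sub 0 0

theorem Corr.neg (C : Corr J k M L e) (x : X) : e (-x) = -e x := by
  simpa [C.zero] using C.sub 0 x

theorem Corr.add (C : Corr J k M L e) (x y : X) : e (x + y) = e x + e y := by
  have := C.sub x (-y)
  rwa [sub_neg_eq_add, C.neg, sub_neg_eq_add] at this

theorem Corr.eq_zero (C : Corr J k M L e) {x : X} (h : e x = 0) : x = 0 :=
  C.inj (h.trans C.zero.symm)

theorem on_neg {t : ℤ} {w : Ob} {x : Fin w.rk → X} (h : On M L t w x) :
    On M L t w fun i => -x i := by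
  cases w with
  | line a s => exact neg_mem h
  | pair c =>
    refine ⟨fun i => neg_mem (h.1 i), ?_⟩
    have : psi L (fun i => -x i) = -psi L x := by simp [psi]; abel
    show psi L (fun i => -x i) ∈ _
    rw [this]
    exact neg_mem h.2

end

theorem fF_one (j : ℕ) (y : Slot.C (j + 2) 1 → OpFam) :
    Slot.fF (j + 1) 1 y = -Slot.fF0 (j + 1) 1 y := by simp [Slot.fF]

theorem fF_two (j : ℕ) (y : Slot.C (j + 2) 2 → OpFam) :
    Slot.fF (j + 1) 2 y = Slot.fF0 (j + 1) 2 y := by simp [Slot.fF]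

theorem fF_three (j : ℕ) (y : Slot.C (j + 2) 3 → OpFam) :
    Slot.fF (j + 1) 3 y = -Slot.fF0 (j + 1) 3 y := by simp [Slot.fF]; norm_num

theorem fF_four (j : ℕ) (y : Slot.C (j + 2) 4 → OpFam) :
    Slot.fF (j + 1) 4 y = Slot.fF0 (j + 1) 4 y := by simp [Slot.fF]; norm_num

theorem famUp_cone {J k : ℕ} (c : Slot.UpLev J (k + 1)) (b : Slot.LowLev (J + 1) k) (u : Fin 8)
    (a : Fin (rk u)) : famUp (Slot.dUp J k c + Slot.linkUp J k b) u a =
      Slot.dF J k (famUp c u a) + Slot.fF J k (famLow b u a) := by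
  rw [famUp_add, fam_dUp, fam_linkUp]

theorem all_bot (j : ℕ) (c : Slot.UpLev (j + 1) 0) :
    ∃ (b : Slot.LowLev (j + 1 + 1) 0) (e : Slot.UpLev (j + 1) 1),
      Slot.dUp (j + 1) 0 e + Slot.linkUp (j + 1) 0 b = c :=
  ⟨0, 0, _root_.funext fun i => i.elim⟩

theorem all_low (j : ℕ) (b : Slot.LowLev (j + 1 + 1) 0) (c : Slot.UpLev (j + 1) 1) :
    ∃ (b' : Slot.LowLev (j + 1 + 1) 1) (c' : Slot.UpLev (j + 1) 2),
      Slot.dLow (j + 1 + 1) 0 b' = b ∧
        Slot.dUp (j + 1) 1 c' + Slot.linkUp (j + 1) 1 b' = c := by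
  choose C hC eC using fun u hu => (corr1 j).exists_on (famOn_up c hu (u := u))
  choose B hB P hP eP using fun u hu => row_bot (av_obj u hu) (hC u hu)
  obtain ⟨b', hb'⟩ := exists_low (fun u hu a => e1 (j := j + 1) (-B u hu a)) fun u hu =>
    (corr1 (j + 1)).famOn (on_neg (hB u hu))
  obtain ⟨c', hc'⟩ := exists_up (fun u hu a => e2 (j := j) (P u hu a)) fun u hu =>
    (corr2 j).famOn (hP u hu)
  refine ⟨b', c', _root_.funext fun i => i.elim, up_ext fun u hu => _root_.funext fun a => ?_⟩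
  rw [famUp_cone, hb' u hu, hc' u hu]
  dsimp only
  rw [fF_one, (corr1 (j + 1)).neg, map_neg, neg_neg, fF0_e1, dF_e2, ← eC u hu a, ← eP u hu a,
    (corr1 j).add]

theorem all_high_zero (j : ℕ) (b : Slot.LowLev (j + 1 + 1) 1) (c : Slot.UpLev (j + 1) 2)
    (h : Slot.dUp (j + 1) 1 c + Slot.linkUp (j + 1) 1 b = 0) :
    ∃ (b' : Slot.LowLev (j + 1 + 1) 2) (c' : Slot.UpLev (j + 1) 3),
      Slot.dLow (j + 1 + 1) 1 b' = b ∧
        Slot.dUp (j + 1) 2 c' + Slot.linkUp (j + 1) 2 b' = c := by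
  choose B hB eB using fun u hu => (corr1 (j + 1)).exists_on (famOn_low b hu (u := u))
  choose X hX eX using fun u hu => (corr2 j).exists_on (famOn_up c hu (u := u))
  have hcone : ∀ u hu a, Symb.acts.d1 j (X u hu a) + Symb.acts.f0 j (-B u hu a) = 0 := by
    intro u hu a
    refine (corr1 j).eq_zero ?_
    rw [(corr1 j).add, ← dF_e2, ← fF0_e1, (corr1 (j + 1)).neg, map_neg, eB, eX]
    have := congrArg (fun x => famUp x u a) h
    simp only [famUp_zero] at this
    rwa [famUp_cone, fF_one] at this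
  choose Y hY P hP eP using fun u hu =>
    row_low (av_obj u hu) (on_neg (hB u hu)) (hX u hu) (hcone u hu)
  obtain ⟨b', hb'⟩ := exists_low (fun u hu a => e2 (j := j + 1) (-Y u hu a)) fun u hu =>
    (corr2 (j + 1)).famOn (on_neg (hY u hu))
  obtain ⟨c', hc'⟩ := exists_up (fun u hu a => e3 (j := j) (P u hu a)) fun u hu =>
    (corr3 j).famOn (hP u hu)
  refine ⟨b', c', low_ext fun u hu => _root_.funext fun a => ?_,
    up_ext fun u hu => _root_.funext fun a => ?_⟩
  · rw [fam_dLow, hb' u hu]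
    dsimp only
    rw [(corr2 (j + 1)).neg, map_neg, dF_e2, (eP u hu a).1,
      (corr1 (j + 1)).neg, neg_neg, eB]
  · rw [famUp_cone, hb' u hu, hc' u hu]
    dsimp only
    rw [fF_two, (corr2 (j + 1)).neg, map_neg, fF0_e2, dF_e3,
      ← sub_eq_add_neg, ← (corr2 j).sub, (eP u hu a).2, eX]

theorem all_high_one (j : ℕ) (b : Slot.LowLev (j + 1 + 1) 2) (c : Slot.UpLev (j + 1) 3)
    (hb : Slot.dLow (j + 1 + 1) 1 b = 0)
    (h : Slot.dUp (j + 1) 2 c + Slot.linkUp (j + 1) 2 b = 0) :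
    ∃ (b' : Slot.LowLev (j + 1 + 1) 3) (c' : Slot.UpLev (j + 1) 4),
      Slot.dLow (j + 1 + 1) 2 b' = b ∧
        Slot.dUp (j + 1) 3 c' + Slot.linkUp (j + 1) 3 b' = c := by
  choose Y hY eY using fun u hu => (corr2 (j + 1)).exists_on (famOn_low b hu (u := u))
  choose P hP eP using fun u hu => (corr3 j).exists_on (famOn_up c hu (u := u))
  have h0 : ∀ u hu a, Symb.acts.d1 (j + 1) (-Y u hu a) = 0 := by
    intro u hu a
    refine (corr1 (j + 1)).eq_zero ?_
    rw [← dF_e2, (corr2 (j + 1)).neg, map_neg, eY, neg_eq_zero]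
    have := congrArg (fun x => famLow x u a) hb
    simp only [famLow_zero] at this
    rwa [fam_dLow] at this
  have hcone : ∀ u hu a, Symb.acts.d2 j (P u hu a) - Symb.acts.f1 j (-Y u hu a) = 0 := by
    intro u hu a
    refine (corr2 j).eq_zero ?_
    rw [(corr2 j).sub, ← dF_e3, ← fF0_e2, (corr2 (j + 1)).neg, map_neg, sub_neg_eq_add, eY, eP]
    have := congrArg (fun x => famUp x u a) h
    simp only [famUp_zero] at this
    rwa [famUp_cone, fF_two] at this
  choose Q hQ G hG eQ using fun u hu =>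
    row_mid (av_obj u hu) (on_neg (hY u hu)) (hP u hu) (h0 u hu) (hcone u hu)
  obtain ⟨b', hb'⟩ := exists_low (fun u hu a => e3 (j := j + 1) (-Q u hu a)) fun u hu =>
    (corr3 (j + 1)).famOn (on_neg (hQ u hu))
  obtain ⟨c', hc'⟩ := exists_up (fun u hu a => e4 (j := j) (G u hu a)) fun u hu =>
    (corr4 j).famOn (hG u hu)
  refine ⟨b', c', low_ext fun u hu => _root_.funext fun a => ?_,
    up_ext fun u hu => _root_.funext fun a => ?_⟩
  · rw [fam_dLow, hb' u hu]
    dsimp only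
    rw [(corr3 (j + 1)).neg, map_neg, dF_e3, (eQ u hu a).1,
      (corr2 (j + 1)).neg, neg_neg, eY]
  · rw [famUp_cone, hb' u hu, hc' u hu]
    dsimp only
    rw [fF_three, (corr3 (j + 1)).neg, map_neg, neg_neg, fF0_e3,
      dF_e4, ← (corr3 j).add, (eQ u hu a).2, eP]

theorem all_high_two (j : ℕ) (b : Slot.LowLev (j + 1 + 1) 3) (c : Slot.UpLev (j + 1) 4)
    (hb : Slot.dLow (j + 1 + 1) 2 b = 0)
    (h : Slot.dUp (j + 1) 3 c + Slot.linkUp (j + 1) 3 b = 0) :
    ∃ (b' : Slot.LowLev (j + 1 + 1) 4) (c' : Slot.UpLev (j + 1) 5),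
      Slot.dLow (j + 1 + 1) 3 b' = b ∧
        Slot.dUp (j + 1) 4 c' + Slot.linkUp (j + 1) 4 b' = c := by
  choose Q hQ eQ using fun u hu => (corr3 (j + 1)).exists_on (famOn_low b hu (u := u))
  choose G hG eG using fun u hu => (corr4 j).exists_on (famOn_up c hu (u := u))
  have h0 : ∀ u hu a, Symb.acts.d2 (j + 1) (-Q u hu a) = 0 := by
    intro u hu a
    refine (corr2 (j + 1)).eq_zero ?_
    rw [← dF_e3, (corr3 (j + 1)).neg, map_neg, eQ, neg_eq_zero]
    have := congrArg (fun x => famLow x u a) hb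
    simp only [famLow_zero] at this
    rwa [fam_dLow] at this
  have hcone : ∀ u hu a, Symb.acts.d3 j (G u hu a) + Symb.acts.f2 (-Q u hu a) = 0 := by
    intro u hu a
    refine (corr3 j).eq_zero ?_
    rw [(corr3 j).add, ← dF_e4, ← fF0_e3, (corr3 (j + 1)).neg, map_neg, eQ, eG]
    have := congrArg (fun x => famUp x u a) h
    simp only [famUp_zero] at this
    rwa [famUp_cone, fF_three] at this
  choose K hK eK using fun u hu =>
    row_high (av_obj u hu) (on_neg (hQ u hu)) (hG u hu) (h0 u hu) (hcone u hu)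
  obtain ⟨b', hb'⟩ := exists_low (fun u hu a => e4 (j := j + 1) (-K u hu a)) fun u hu =>
    (corr4 (j + 1)).famOn (on_neg (hK u hu))
  refine ⟨b', 0, low_ext fun u hu => _root_.funext fun a => ?_,
    up_ext fun u hu => _root_.funext fun a => ?_⟩
  · rw [fam_dLow, hb' u hu]
    dsimp only
    rw [(corr4 (j + 1)).neg, map_neg, dF_e4, (eK u hu a).1,
      (corr3 (j + 1)).neg, neg_neg, eQ]
  · rw [famUp_cone, hb' u hu]
    dsimp only
    rw [fF_four, (corr4 (j + 1)).neg, map_neg, fF0_e4, famUp_zero,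
      map_zero, zero_add, ← (corr4 j).neg, (eK u hu a).2, eG]

theorem all_high_three (j : ℕ) (b : Slot.LowLev (j + 1 + 1) 4) (c : Slot.UpLev (j + 1) 5)
    (hb : Slot.dLow (j + 1 + 1) 3 b = 0) :
    ∃ (b' : Slot.LowLev (j + 1 + 1) 5) (c' : Slot.UpLev (j + 1) 6),
      Slot.dLow (j + 1 + 1) 4 b' = b ∧
        Slot.dUp (j + 1) 5 c' + Slot.linkUp (j + 1) 5 b' = c := by
  refine ⟨0, 0, ?_, _root_.funext fun i => i.elim⟩
  rw [map_zero]
  refine low_ext fun u hu => _root_.funext fun a => ?_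
  obtain ⟨K, hK, eK⟩ := (corr4 (j + 1)).exists_on (famOn_low b hu (u := u))
  have h0 : ∀ i, Symb.acts.d3 (j + 1) (K i) = 0 := fun i => by
    refine (corr3 (j + 1)).eq_zero ?_
    rw [← dF_e4, eK]
    have := congrArg (fun x => famLow x u i) hb
    simp only [famLow_zero] at this
    rwa [fam_dLow] at this
  rw [famLow_zero, ← eK a, row_top (av_obj u hu) hK h0, Pi.zero_apply, (corr4 (j + 1)).zero]

/-- The fields of cone exactness over the complexes of positive number. -/
theorem all_high (j : ℕ) : ∀ k (b : Slot.LowLev (j + 1 + 1) (k + 1))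
    (c : Slot.UpLev (j + 1) (k + 2)), Slot.dLow (j + 1 + 1) k b = 0 →
    Slot.dUp (j + 1) (k + 1) c + Slot.linkUp (j + 1) (k + 1) b = 0 →
    ∃ (b' : Slot.LowLev (j + 1 + 1) (k + 2)) (c' : Slot.UpLev (j + 1) (k + 3)),
      Slot.dLow (j + 1 + 1) (k + 1) b' = b ∧
        Slot.dUp (j + 1) (k + 2) c' + Slot.linkUp (j + 1) (k + 2) b' = c
  | 0, b, c, _, h => all_high_zero j b c h
  | 1, b, c, hb, h => all_high_one j b c hb h
  | 2, b, c, hb, h => all_high_two j b c hb h
  | 3, b, c, hb, _ => all_high_three j b c hb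
  | _ + 4, _, _, _, _ =>
    ⟨0, 0, _root_.funext fun i => i.elim, _root_.funext fun i => i.elim⟩

end Vale.Agent.P195.Gamma.ExactA
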