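import Vale.Agent.P195.Gamma.SymActs

/-!
The complexes at a line object are resolutions: exactness by explicit elements.
-/

namespace Vale.Agent.P195.Gamma.ExactA

open MvPolynomial Symb

variable {s t : ℤ} {j : ℕ}

/-- The third pieces at the line `s`. -/
noncomputable def M3 (s t : ℤ) (j : ℕ) : Submodule ℚ R := S (-s) t j

/-- The middle pieces at the line `s`. -/
noncomputable def M2 (s t : ℤ) (j : ℕ) : Submodule ℚ (Fin 2 → Fin 2 → R) where
  carrier := {p | ∀ l, (∀ r, p l r ∈ S (1 - s) t j) ∧ zc (p l) ∈ S (-s) (t + 1) j}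
  zero_mem' _ := ⟨fun _ => zero_mem _, by simp [zc]⟩
  add_mem' {p q} hp hq l := ⟨fun r => add_mem ((hp l).1 r) ((hq l).1 r), by
    have := add_mem (hp l).2 (hq l).2
    convert this using 1
    simp [zc]; ring⟩
  smul_mem' c p hp l := ⟨fun r => Submodule.smul_mem _ c ((hp l).1 r), by
    have := Submodule.smul_mem _ c (hp l).2
    convert this using 1
    simp [zc, smul_add]⟩

/-- The first pieces at the line `s`. -/
noncomputable def M1 (s t : ℤ) (j : ℕ) : Submodule ℚ ((Fin 2 → R) × (Fin 2 → R)) where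
  carrier := {x | (∀ l, x.1 l ∈ S (1 - s) t (j + 1)) ∧ (∀ r, x.2 r ∈ S (2 - s) t (j - 1)) ∧
    zc x.2 ∈ S (-s) (t + 1) (j - 1)}
  zero_mem' := ⟨fun _ => zero_mem _, fun _ => zero_mem _, by simp [zc]⟩
  add_mem' {x y} hx hy := ⟨fun l => add_mem (hx.1 l) (hy.1 l),
    fun r => add_mem (hx.2.1 r) (hy.2.1 r), by
    have := add_mem hx.2.2 hy.2.2
    convert this using 1
    simp [zc]; ring⟩
  smul_mem' c x hx := ⟨fun l => Submodule.smul_mem _ c (hx.1 l),
    fun r => Submodule.smul_mem _ c (hx.2.1 r), by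
    have := Submodule.smul_mem _ c hx.2.2
    convert this using 1
    simp [zc, smul_add]⟩

/-- The last pieces at the line `s`. -/
noncomputable def M0 (s t : ℤ) (j : ℕ) : Submodule ℚ R := S (2 - s) t j

theorem S_cast {d d' t t' q q' : ℤ} (hd : d = d') (ht : t = t') (hq : q = q') {f : R}
    (h : f ∈ S d t q) : f ∈ S d' t' q' := hd ▸ ht ▸ hq ▸ h

theorem acts_Y (l : Fin 2) (f : R) : acts.Y l f = yv l * f := rfl
theorem acts_Z (l : Fin 2) (f : R) : acts.Z l f = zv l * f := rfl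
theorem acts_A (l : Fin 2) (f : R) : acts.A l f = A l f := rfl
theorem acts_P (l : Fin 2) (f : R) : acts.P l f = dy l f := rfl

/-- The contraction turns the auxiliary derivatives into the translation. -/
theorem zc_dy (f : R) : zc (fun r => dy r f) = T f := rfl

theorem zc_iota (g : R) : zc (iota g) = Delta * g := by
  simp [zc, iota, Delta]; ring

theorem T_iota (g : R) (l : Fin 2) :
    T (iota g l) = iota (T g) l + ![zv 1 * g, -(zv 0 * g)] l := by
  fin_cases l <;> simp [T_apply, iota, dy_yv_mul] <;> ring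

theorem dy_Delta (l : Fin 2) : dy l Delta = ![-zv 1, zv 0] l := by
  have h : ∀ r : Fin 2, dy l (yv r) = if l = r then (1 : R) else 0 := fun r => by
    have := dy_yv_mul l r 1
    simpa [show dy l (1 : R) = 0 from pderiv_one] using this
  rw [Delta, map_sub, dy_zv_mul, dy_zv_mul, h, h]
  fin_cases l <;> simp

theorem dy_Delta_mul (l : Fin 2) (g : R) :
    dy l (Delta * g) = Delta * dy l g + ![-zv 1, zv 0] l * g := by
  rw [← dy_Delta]
  show pderiv ((2, l) : V) (Delta * g) = _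
  rw [pderiv_mul]
  simp [dy]; ring

theorem WB_mem {g : R} (hg : g ∈ M3 s t j) (l : Fin 2) :
    acts.WB j l g ∈ S (1 - s) t (j - 1) := by
  refine sub_mem (Submodule.smul_mem _ _ ?_) (Submodule.smul_mem _ _ ?_)
  · exact S_cast (by ring) (by ring) rfl (T_mem (A_mem l hg))
  · exact S_mono (by omega) (dy_mem l hg)

theorem zc_smul_sub (a b : Fin 2 → R) (c : ℚ) :
    zc (fun r => a r - c • b r) = zc a - c • zc b := by
  simp only [zc, mul_sub, mul_smul_comm, smul_add]; ring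

/-- The contraction of the first differential. -/
theorem zc_d3 {g : R} (hg : g ∈ M3 s t j) (l : Fin 2) :
    zc (acts.d3 j g l) = -dy l (Delta * g) := by
  have hj : (j : ℚ) + 1 ≠ 0 := by positivity
  have e1 : zc (fun r => acts.io r (acts.WB j l g)) = Delta * acts.WB j l g := by
    simp only [acts_io, ← zc_iota]
  have e2 : acts.zP (fun s => acts.io s g) = Delta * g := by
    rw [acts_zP]; simp only [acts_io, ← zc_iota]
  show zc (fun r => acts.io r (acts.WB j l g) - Acts.cj j •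
    acts.P r (acts.A l (acts.zP fun s => acts.io s g))) = _
  rw [zc_smul_sub, e1, e2]
  show Delta * (Acts.cj j • T (A l g) - (((j : ℚ) + 2) * Acts.cj j) • dy l g) -
    Acts.cj j • T (A l (Delta * g)) = _
  rw [A_Delta_mul, map_sub, T_Delta_mul, T_iota, dy_Delta_mul, mul_sub, smul_sub, ← sub_eq_zero]
  simp only [mul_smul_comm, smul_eq_C_mul, map_mul, map_add, map_natCast, map_ofNat]
  have he : yv 0 * dy 0 g + yv 1 * dy 1 g = C (j : ℚ) * g := by
    rw [euler hg, smul_eq_C_mul]; simp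
  have hc : C (Acts.cj j) * (C (j : ℚ) + 1) = (1 : R) := by
    rw [← map_one (C (σ := V) (R := ℚ)), ← map_add, ← map_mul, Acts.cj, inv_mul_cancel₀ hj]
  rw [map_natCast] at he hc
  fin_cases l <;> simp [iota, T_apply, Delta]
  · linear_combination (-(zv 0 * yv 1 - zv 1 * yv 0) * dy 0 g + zv 1 * g) * hc +
      (C (Acts.cj j) * zv 1) * he
  · linear_combination (-(zv 0 * yv 1 - zv 1 * yv 0) * dy 1 g - zv 0 * g) * hc -
      (C (Acts.cj j) * zv 0) * he

theorem d3_mem {g : R} (hg : g ∈ M3 s t j) : acts.d3 j g ∈ M2 s t j := by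
  refine fun l => ⟨fun r => sub_mem ?_ (Submodule.smul_mem _ _ ?_), ?_⟩
  · rw [acts_io]
    exact S_cast rfl rfl (by ring) (iota_mem (WB_mem hg l) r)
  · rw [acts_zP]
    simp only [acts_io]
    show dy r (A l (zc (iota g))) ∈ _
    rw [zc_iota]
    exact S_cast (by ring) (by ring) (by ring) (dy_mem r (A_mem l (Delta_mul_mem hg)))
  · rw [zc_d3 hg]
    exact neg_mem (S_cast rfl rfl (by ring) (dy_mem l (Delta_mul_mem hg)))

theorem zc_neg (P : Fin 2 → R) : -zc P = zc fun r => -P r := by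
  simp [zc]; ring

/-- The contraction of the lower component of the middle differential. -/
theorem zc_d2_snd (p : Fin 2 → Fin 2 → R) :
    zc (acts.d2 j p).2 = dy 1 (zc (p 0)) - dy 0 (zc (p 1)) := by
  show zc (fun r => acts.dG j 0 (p 1) r - acts.dG j 1 (p 0) r) = _
  simp [Acts.dG, acts_Z, acts_P, acts_A, zc, dy_zv_mul, smul_sub, mul_smul_comm,
    Acts.fin2_one_sub_zero, Acts.fin2_one_sub_one, smul_eq_C_mul]
  ring

theorem d2_fst (p : Fin 2 → Fin 2 → R) (l : Fin 2) : (acts.d2 j p).1 l =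
    yc (p l) + Acts.cj j • A l (yv 0 * -zc (p 0) + yv 1 * -zc (p 1)) := rfl

theorem d2_mem {p : Fin 2 → Fin 2 → R} (hp : p ∈ M2 s t j) : acts.d2 j p ∈ M1 s t j := by
  refine ⟨fun l => ?_, fun r => ?_, ?_⟩
  · rw [d2_fst]
    refine add_mem (add_mem (yv_mul_mem 0 ((hp l).1 0)) (yv_mul_mem 1 ((hp l).1 1)))
      (Submodule.smul_mem _ _ ?_)
    exact S_cast (by ring) (by ring) rfl (A_mem l
      (add_mem (yv_mul_mem 0 (neg_mem (hp 0).2)) (yv_mul_mem 1 (neg_mem (hp 1).2))))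
  · have h : ∀ l m, acts.dG j l (p m) r ∈ S (2 - s) t (j - 1) := fun l m => by
      refine add_mem (neg_mem (S_mono (by omega) (dy_mem l ((hp m).1 r)))) ?_
      refine Submodule.smul_mem _ _ (sub_mem ?_ ?_)
      · exact S_cast (by ring) (by ring) rfl (zv_mul_mem _ (dy_mem _ (A_mem l ((hp m).1 r))))
      · exact S_cast (by ring) (by ring) rfl
          (zv_mul_mem _ (dy_mem _ (A_mem l ((hp m).1 (1 - r)))))
    exact sub_mem (h 0 1) (h 1 0)
  · rw [zc_d2_snd]
    exact sub_mem (dy_mem 1 (hp 0).2) (dy_mem 0 (hp 1).2)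

theorem d1_eq (x : (Fin 2 → R) × (Fin 2 → R)) : acts.d1 j x =
    -(acts.WH j 0 (x.1 1) - acts.WH j 1 (x.1 0)) + yv 0 * x.2 0 + yv 1 * x.2 1 +
      Acts.cj j • (yv 0 * A 0 (-zc x.2) + yv 1 * A 1 (-zc x.2)) := rfl

theorem WH_mem {h : R} (hh : h ∈ S (1 - s) t (j + 1)) (l : Fin 2) :
    acts.WH j l h ∈ S (2 - s) t j := by
  refine sub_mem (Submodule.smul_mem _ _ ?_) ?_
  · exact S_cast (by ring) (by ring) (by ring) (T_mem (A_mem l hh))
  · exact S_cast rfl rfl (by ring) (S_mono (by omega) (dy_mem l hh))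

theorem d1_mem {x : (Fin 2 → R) × (Fin 2 → R)} (hx : x ∈ M1 s t j) :
    acts.d1 j x ∈ M0 s t j := by
  have hY : ∀ l (f : R), f ∈ S (2 - s) t (j - 1) → yv l * f ∈ S (2 - s) t (j : ℤ) := fun l f hf =>
    S_cast rfl rfl (by ring) (yv_mul_mem l hf)
  have hQ : ∀ l, A l (-zc x.2) ∈ S (2 - s) t ((j : ℤ) - 1) := fun l =>
    S_mono (by omega) (S_cast rfl (by ring) rfl (A_mem l (neg_mem hx.2.2)))
  rw [d1_eq]
  exact add_mem (add_mem (add_mem (neg_mem (sub_mem (WH_mem (hx.1 1) 0) (WH_mem (hx.1 0) 1)))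
    (hY 0 _ (hx.2.1 0))) (hY 1 _ (hx.2.1 1)))
      (Submodule.smul_mem _ _ (add_mem (hY 0 _ (hQ 0)) (hY 1 _ (hQ 1))))

theorem res_WH {h : R} {d' : ℤ} (hh : h ∈ S d' t (j + 1)) (l : Fin 2) :
    res (acts.WH j l h) = A l (res h) := by
  have hj : (j : ℚ) + 1 ≠ 0 := by positivity
  show res (Acts.cj j • T (A l h) - dy l h) = _
  rw [map_sub, map_smul, res_T (A_mem l hh), smul_smul, res_A, Int.cast_add, Int.cast_natCast,
    Int.cast_one, Acts.cj, inv_mul_cancel₀ hj, one_smul]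

/-- Contraction with the variables is surjective in positive weight. -/
theorem zc_surj {d : ℤ} {q : ℤ} (ht : 0 ≤ t) {f : R} (hf : f ∈ S d (t + 1) q) :
    ∃ P : Fin 2 → R, (∀ r, P r ∈ S d t q) ∧ zc P = f := by
  have key : S d (t + 1) q ≤ (S d t q).map (LinearMap.mulLeft ℚ (zv 0)) ⊔
      (S d t q).map (LinearMap.mulLeft ℚ (zv 1)) := by
    rw [S, restrictSupport_eq_span, Submodule.span_le]
    rintro _ ⟨e, ⟨h0, h1, h2⟩, rfl⟩
    simp only [deg] at h0 h1 h2
    obtain ⟨k, hk⟩ : ∃ k : Fin 2, 1 ≤ e (1, k) := by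
      by_cases h : 1 ≤ e (1, 0)
      · exact ⟨0, h⟩
      · exact ⟨1, by omega⟩
    have he : zv k * monomial (e - Finsupp.single (1, k) 1) (1 : ℚ) = monomial e 1 := by
      rw [zv, X, monomial_mul, one_mul, add_tsub_cancel_of_le (Finsupp.single_le_iff.2 hk)]
    have hm : monomial (e - Finsupp.single (1, k) 1) (1 : ℚ) ∈ S d t q :=
      mem_of_zv_mul (t := t + 1) k (by rw [he]; exact mono_mem 1 ⟨h0, h1, h2⟩) |> fun h =>
        S_cast rfl (by ring) rfl h
    fin_cases k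
    exacts [Submodule.mem_sup_left ⟨_, hm, he⟩, Submodule.mem_sup_right ⟨_, hm, he⟩]
  obtain ⟨_, ⟨a, ha, rfl⟩, _, ⟨b, hb, rfl⟩, e⟩ := Submodule.mem_sup.1 (key hf)
  exact ⟨![a, b], Fin.forall_fin_two.2 ⟨ha, hb⟩, e⟩

/-! ### Exactness -/

theorem eps_surj (hs : s ≤ 2) (ht : 0 ≤ t) {p : Model.Pol} (hp : p ∈ Model.H (t + j)) :
    ∃ c ∈ M0 s t j, app c = p := by
  obtain ⟨f, hf, rfl⟩ := app_surj (d := 2 - s) (by omega) hp
  obtain ⟨c, hc, e⟩ := res_surj (Int.natCast_nonneg j) ht hf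
  exact ⟨c, hc, by rw [← e, app_res]⟩

theorem exact0 (ht : 0 ≤ t) {c : R} (hc : c ∈ M0 s t j) (h : app c = 0) :
    ∃ x ∈ M1 s t j, acts.d1 j x = c := by
  obtain ⟨u, hu, he⟩ := app_ker (res_mem hc) (by rwa [app_res])
  have hlift : ∀ l, ∃ f ∈ S (1 - s) t ((j : ℤ) + 1), res f = u l := fun l =>
    res_surj (by omega) ht (S_cast (by ring) (by ring) rfl (hu l))
  choose f hf hres using hlift
  have hx : ((![f 1, -f 0], 0) : (Fin 2 → R) × (Fin 2 → R)) ∈ M1 s t j :=
    ⟨Fin.forall_fin_two.2 ⟨hf 1, neg_mem (hf 0)⟩, fun _ => zero_mem _, by simp [zc]⟩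
  have hr : res (c - acts.d1 j (![f 1, -f 0], 0)) = 0 := by
    rw [map_sub, d1_eq]
    simp [zc, res_WH (hf 1), res_WH (neg_mem (hf 0)), hres, he]; ring
  obtain ⟨g, hg, e⟩ := eq_Delta_mul_of_res (sub_mem hc (d1_mem hx)) hr
  have hy : ((0, ![-(zv 1 * g), zv 0 * g]) : (Fin 2 → R) × (Fin 2 → R)) ∈ M1 s t j := by
    have hz : ∀ k, zv k * g ∈ S (2 - s) t ((j : ℤ) - 1) := fun k =>
      S_cast rfl (by ring) rfl (zv_mul_mem k hg)
    refine ⟨fun _ => zero_mem _, Fin.forall_fin_two.2 ⟨neg_mem (hz 1), hz 0⟩, ?_⟩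
    rw [show zc ![-(zv 1 * g), zv 0 * g] = 0 by simp [zc]; ring]
    exact zero_mem _
  refine ⟨_, add_mem hx hy, ?_⟩
  have e2 : acts.d1 j (0, ![-(zv 1 * g), zv 0 * g]) = Delta * g := by
    rw [d1_eq, show zc (![-(zv 1 * g), zv 0 * g]) = 0 by simp [zc]; ring]
    simp [Acts.WH, Delta]; ring
  show (acts.d1L j) (_ + _) = c
  rw [map_add]
  show acts.d1 j _ + acts.d1 j _ = c
  rw [e2, ← e, add_sub_cancel]

theorem exact1 (ht : 0 ≤ t) {x : (Fin 2 → R) × (Fin 2 → R)} (hx : x ∈ M1 s t j)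
    (h : acts.d1 j x = 0) : ∃ p ∈ M2 s t j, acts.d2 j p = x := by
  have hdd : ∀ p ∈ M2 s t j, acts.d1 j (acts.d2 j p) = 0 := fun p hp =>
    acts.d1_d2 j p fun l r => acts_deg_nat ((hp l).1 r)
  -- the contracted part
  have step1 : ∃ p ∈ M2 s t j, zc (acts.d2 j p).2 = zc x.2 := by
    rcases Nat.eq_zero_or_pos j with rfl | hj
    · refine ⟨0, zero_mem _, ?_⟩
      have h0 : zc x.2 ∈ S (-s) (t + 1) (((0 : ℕ) : ℤ) - 1) := hx.2.2
      rw [S_eq_bot (Or.inr (Or.inl (by simp))), Submodule.mem_bot] at h0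
      rw [zc_d2_snd, h0]; simp [zc]
    obtain ⟨u, hu, hcurl⟩ := curl_surj (d := -s) (by omega) (neg_mem hx.2.2)
    choose P hP hzc using fun l => zc_surj ht (S_cast rfl rfl (sub_add_cancel _ _) (hu l))
    refine ⟨P, fun l => ⟨fun r => S_mono (by omega) (hP l r),
      by rw [hzc]; exact S_cast rfl rfl (sub_add_cancel _ _) (hu l)⟩, ?_⟩
    rw [zc_d2_snd, hzc, hzc]
    linear_combination -hcurl
  obtain ⟨p1, hp1, e1⟩ := step1
  set x1 := x - acts.d2 j p1 with hx1def
  have hx1 : x1 ∈ M1 s t j := sub_mem hx (d2_mem hp1)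
  have h1 : acts.d1 j x1 = 0 := by
    show acts.d1L j (x - _) = 0
    rw [map_sub]
    show acts.d1 j x - acts.d1 j _ = 0
    rw [h, hdd _ hp1, sub_zero]
  have hQ : zc x1.2 = 0 := by
    have : zc x1.2 = zc x.2 - zc (acts.d2 j p1).2 := by simp [hx1def, zc]; ring
    rw [this, e1, sub_self]
  obtain ⟨g, hg, g0, g1⟩ := zc_koszul hx1.2.1 hQ
  have hres : A 0 (res (x1.1 1)) + A 1 (-res (x1.1 0)) = 0 := by
    have := congrArg res h1
    rw [d1_eq, hQ, g0, g1] at this
    simp [res_WH (hx1.1 0), res_WH (hx1.1 1), res_yv, res_zv] at this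
    rw [map_neg]
    linear_combination -this
  obtain ⟨v, hv, v0, v1⟩ := A_koszul (u := ![res (x1.1 1), -res (x1.1 0)])
    (Fin.forall_fin_two.2 ⟨res_mem (hx1.1 1), neg_mem (res_mem (hx1.1 0))⟩) hres
  obtain ⟨η, hη, hηv⟩ := res_surj (t := t + 1) (q := (j : ℤ) + 1) (by omega) (by omega)
    (S_cast (d' := -s) (by ring) (by ring) rfl hv)
  have hdη : ∀ l, dy l η ∈ S (-s) (t + 1) j := fun l => S_cast rfl rfl (by ring) (dy_mem l hη)
  choose P hP hzc using fun l => zc_surj ht (neg_mem (hdη l))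
  have hp2 : P ∈ M2 s t j :=
    fun l => ⟨fun r => S_mono (by omega) (hP l r), by rw [hzc]; exact neg_mem (hdη l)⟩
  set x2 := x1 - acts.d2 j P with hx2def
  have hx2 : x2 ∈ M1 s t j := sub_mem hx1 (d2_mem hp2)
  have h2 : acts.d1 j x2 = 0 := by
    show acts.d1L j (x1 - _) = 0
    rw [map_sub]
    show acts.d1 j x1 - acts.d1 j _ = 0
    rw [h1, hdd _ hp2, sub_zero]
  have hQ2 : zc x2.2 = 0 := by
    have : zc x2.2 = zc x1.2 - zc (acts.d2 j P).2 := by simp [hx2def, zc]; ring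
    rw [this, hQ, zc_d2_snd, hzc, hzc, map_neg, map_neg]
    have hc : dy 1 (dy 0 η) = dy 0 (dy 1 η) := pderiv_comm' _ _ _
    rw [hc]; ring
  have hr2 : ∀ l, res (x2.1 l) = 0 := by
    intro l
    have hl : res ((acts.d2 j P).1 l) = A l (res η) := by
      rw [d2_fst, hzc, hzc, neg_neg, neg_neg, euler hη, map_smul, smul_smul, map_add,
        res_zc_eq_yc, hzc, map_smul, map_neg, res_A]
      rw [Int.cast_add, Int.cast_natCast, Int.cast_one, Acts.cj,
        inv_mul_cancel₀ (by positivity), one_smul]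
      abel
    rw [hx2def, Prod.fst_sub, Pi.sub_apply, map_sub, hl, hηv]
    fin_cases l
    · show res (x1.1 0) - A 0 v = 0
      have : -res (x1.1 0) = -A 0 v := v1
      linear_combination -this
    · show res (x1.1 1) - A 1 v = 0
      exact sub_eq_zero.2 v0
  choose k hk ek using fun l => eq_Delta_mul_of_res (hx2.1 l) (hr2 l)
  let P' : Fin 2 → Fin 2 → R := fun l => ![-(zv 1 * k l), zv 0 * k l]
  have hP'z : ∀ l, zc (P' l) = 0 := fun l => by simp [P', zc]; ring
  have hp3 : P' ∈ M2 s t j := by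
    intro l
    refine ⟨Fin.forall_fin_two.2 ⟨neg_mem ?_, ?_⟩, by rw [hP'z]; exact zero_mem _⟩ <;>
      exact S_cast rfl (by ring) (by ring) (zv_mul_mem _ (hk l))
  have hfst : ∀ l, (acts.d2 j P').1 l = x2.1 l := fun l => by
    rw [d2_fst, hP'z, hP'z, ek]
    simp [P', yc, Delta]; ring
  set x3 := x2 - acts.d2 j P' with hx3def
  have hx3 : x3 ∈ M1 s t j := sub_mem hx2 (d2_mem hp3)
  have h3 : acts.d1 j x3 = 0 := by
    show acts.d1L j (x2 - _) = 0
    rw [map_sub]
    show acts.d1 j x2 - acts.d1 j _ = 0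
    rw [h2, hdd _ hp3, sub_zero]
  have hh3 : x3.1 = 0 := funext fun l => by simp [hx3def, hfst]
  have hQ3 : zc x3.2 = 0 := by
    have : zc x3.2 = zc x2.2 - zc (acts.d2 j P').2 := by simp [hx3def, zc]; ring
    rw [this, hQ2, zc_d2_snd, hP'z, hP'z]; simp
  obtain ⟨g', -, g'0, g'1⟩ := zc_koszul hx3.2.1 hQ3
  have hg' : g' = 0 := by
    rw [d1_eq, hQ3, g'0, g'1, hh3] at h3
    have h4 : Delta * g' = 0 := by
      simp [Acts.WH] at h3
      show (zv 0 * yv 1 - zv 1 * yv 0) * g' = 0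
      linear_combination -h3
    exact (mul_eq_zero.1 h4).resolve_left Delta_ne_zero
  have hx30 : x3 = 0 := Prod.ext hh3 (funext fun r => by
    fin_cases r <;> simp [g'0, g'1, hg'])
  refine ⟨p1 + P + P', add_mem (add_mem hp1 hp2) hp3, ?_⟩
  show acts.d2L j _ = x
  rw [map_add, map_add]
  show acts.d2 j p1 + acts.d2 j P + acts.d2 j P' = x
  have : x - acts.d2 j p1 - acts.d2 j P - acts.d2 j P' = 0 := hx30
  linear_combination (norm := abel) (-1 : ℤ) • this

theorem exact2 (ht : 0 ≤ t) {p : Fin 2 → Fin 2 → R} (hp : p ∈ M2 s t j)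
    (h : acts.d2 j p = 0) : ∃ g ∈ M3 s t j, acts.d3 j g = p := by
  have hc : dy 0 (zc (p 1)) = dy 1 (zc (p 0)) := by
    have := zc_d2_snd (j := j) p
    rw [h] at this
    simp [zc] at this ⊢
    linear_combination this
  obtain ⟨η, hη, hdη⟩ := curl_exact (Int.natCast_nonneg j) (u := fun l => -zc (p l))
    (fun l => neg_mem (hp l).2) (by simp [hc])
  have hres : res η = 0 := by
    refine A_injective 0 ?_
    have h0 := congrArg (fun y : (Fin 2 → R) × (Fin 2 → R) => res (y.1 0)) h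
    simp only [Prod.fst_zero, Pi.zero_apply, map_zero] at h0
    have e0 : zc (p 0) = -dy 0 η := by rw [← hdη 0, neg_neg]
    rw [d2_fst, show -zc (p 0) = dy 0 η from hdη 0, show -zc (p 1) = dy 1 η from hdη 1, euler hη,
      map_smul, smul_smul, map_add, res_zc_eq_yc, e0, map_smul, map_neg, Int.cast_add,
      Int.cast_natCast, Int.cast_one, Acts.cj, inv_mul_cancel₀ (by positivity), one_smul] at h0
    rw [map_zero, res_A]
    linear_combination h0
  obtain ⟨g, hg, hgη⟩ := eq_Delta_mul_of_res hη hres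
  have hg' : g ∈ M3 s t j := S_cast rfl (by ring) (by ring) hg
  refine ⟨g, hg', ?_⟩
  have hdiff : ∀ l, zc (p l - acts.d3 j g l) = 0 := fun l => by
    have : zc (p l - acts.d3 j g l) = zc (p l) - zc (acts.d3 j g l) := by simp [zc]; ring
    rw [this, zc_d3 hg', ← hgη, ← hdη l]; ring
  have hm := sub_mem hp (d3_mem hg')
  choose k hk k0 k1 using fun l => zc_koszul (hm l).1 (hdiff l)
  have hd : acts.d2 j (p - acts.d3 j g) = 0 := by
    show acts.d2L j (p - _) = 0
    rw [map_sub]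
    show acts.d2 j p - acts.d2 j _ = 0
    rw [h, zero_sub, neg_eq_zero]
    exact Prod.ext (funext fun l => acts.d2_d3_fst j g (acts_deg_nat hg') l)
      (funext fun r => acts.d2_d3_snd j g (acts_deg_nat hg') r)
  have hk0 : ∀ l, k l = 0 := fun l => by
    have := congrArg (fun y : (Fin 2 → R) × (Fin 2 → R) => y.1 l) hd
    simp only [Prod.fst_zero, Pi.zero_apply] at this
    rw [d2_fst, show zc ((p - acts.d3 j g) 0) = 0 from hdiff 0,
      show zc ((p - acts.d3 j g) 1) = 0 from hdiff 1] at this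
    simp only [yc, Pi.sub_apply] at this k0 k1 ⊢
    rw [k0, k1] at this
    have h4 : Delta * k l = 0 := by
      simp at this
      show (zv 0 * yv 1 - zv 1 * yv 0) * k l = 0
      linear_combination -this
    exact (mul_eq_zero.1 h4).resolve_left Delta_ne_zero
  funext l r
  have a0 := k0 l
  have a1 := k1 l
  rw [hk0 l, mul_zero] at a0
  rw [hk0 l, mul_zero, neg_zero] at a1
  fin_cases r
  · exact (sub_eq_zero.1 a0).symm
  · exact (sub_eq_zero.1 a1).symm

theorem exact3 {g : R} (hg : g ∈ M3 s t j) (h : acts.d3 j g = 0) : g = 0 := by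
  have h0 : ∀ l, dy l (Delta * g) = 0 := fun l => by
    have := zc_d3 hg l
    rw [h] at this
    simpa [zc] using this.symm
  have he := euler (Delta_mul_mem hg)
  rw [h0, h0, mul_zero, mul_zero, add_zero, eq_comm, smul_eq_zero] at he
  refine (mul_eq_zero.1 (he.resolve_left ?_)).resolve_left Delta_ne_zero
  simp; positivity

end Vale.Agent.P195.Gamma.ExactA
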