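import Vale.Agent.P195.Gamma.Left
import Vale.Agent.P195.Gamma.ExactA.Line

/-!
The head of the resolution and the cone over it: every step is a lift of explicit elements, at a
line object and, by the transfer to rows, at every vertex.
-/

namespace Vale.Agent.P195.Gamma.ExactA.Head

open MvPolynomial Symb

/-- Pieces at the ends of the head. -/
noncomputable def K0 (d b : ℤ) : Submodule ℚ R := S d (b + 1) 0

/-- Pieces in position one of the head. -/
noncomputable def K1 (d b : ℤ) : Submodule ℚ (Fin 2 → R) where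
  carrier := {P | (∀ r, P r ∈ S (d + 2) b 0) ∧ zc P ∈ S d (b + 1) 0}
  zero_mem' := ⟨fun _ => zero_mem _, by simp [zc]⟩
  add_mem' {p q} hp hq := ⟨fun r => add_mem (hp.1 r) (hq.1 r), by
    have := add_mem hp.2 hq.2
    convert this using 1
    simp [zc]; ring⟩
  smul_mem' c p hp := ⟨fun r => Submodule.smul_mem _ c (hp.1 r), by
    have := Submodule.smul_mem _ c hp.2
    convert this using 1
    simp [zc, smul_add]⟩

/-- Pieces in position two of the head. -/
noncomputable def K2 (d b : ℤ) : Submodule ℚ (Fin 2 → R) :=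
  Submodule.pi Set.univ fun _ => S (d + 1) b 0

theorem mem_K2 {d b : ℤ} {h : Fin 2 → R} : h ∈ K2 d b ↔ ∀ l, h l ∈ S (d + 1) b 0 :=
  ⟨fun hh l => hh l (Set.mem_univ _), fun hh l _ => hh l⟩

/-- The sources of the first link, one level down. -/
noncomputable def L1 (d b : ℤ) : Submodule ℚ R := S (d + 2) (b - 1) 0

/-- The sources of the second link, one level down, with the corrections. -/
noncomputable def L2 (d b : ℤ) : Submodule ℚ ((Fin 2 → R) × R) :=
  (Submodule.pi Set.univ fun _ : Fin 2 => S (d + 1) (b - 1) 1).prod (K0 d b)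

theorem mem_L2 {d b : ℤ} {x : (Fin 2 → R) × R} :
    x ∈ L2 d b ↔ (∀ l, x.1 l ∈ S (d + 1) (b - 1) 1) ∧ x.2 ∈ S d (b + 1) 0 :=
  ⟨fun h => ⟨fun l => h.1 l (Set.mem_univ _), h.2⟩, fun h => ⟨fun l _ => h.1 l, h.2⟩⟩

/-- The contraction as a linear map. -/
noncomputable def zcL : (Fin 2 → R) →ₗ[ℚ] R :=
  LinearMap.mulLeft ℚ (zv 0) ∘ₗ LinearMap.proj 0 + LinearMap.mulLeft ℚ (zv 1) ∘ₗ LinearMap.proj 1

theorem zcL_apply (P : Fin 2 → R) : zcL P = zc P := rfl

/-- The Koszul map of the variables. -/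
noncomputable def kz : R →ₗ[ℚ] (Fin 2 → R) :=
  LinearMap.pi ![LinearMap.mulLeft ℚ (zv 1), -LinearMap.mulLeft ℚ (zv 0)]

theorem kz_zero (g : R) : kz g 0 = zv 1 * g := rfl

theorem kz_one (g : R) : kz g 1 = -(zv 0 * g) := rfl

/-- The curl of the derivatives. -/
noncomputable def curl : (Fin 2 → R) →ₗ[ℚ] R :=
  A 1 ∘ₗ LinearMap.proj 0 - A 0 ∘ₗ LinearMap.proj 1

theorem curl_apply (h : Fin 2 → R) : curl h = A 1 (h 0) - A 0 (h 1) := rfl

/-- The pair of derivatives. -/
noncomputable def hd3 : R →ₗ[ℚ] (Fin 2 → R) := LinearMap.pi A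

theorem hd3_apply (w : R) (l : Fin 2) : hd3 w l = A l w := rfl

/-- The second link together with the correction. -/
noncomputable def lift2 : ((Fin 2 → R) × R) →ₗ[ℚ] (Fin 2 → R) :=
  LinearMap.pi fun l => T ∘ₗ LinearMap.proj l ∘ₗ LinearMap.fst ℚ _ _ +
    A l ∘ₗ LinearMap.snd ℚ _ _

theorem lift2_apply (x : (Fin 2 → R) × R) (l : Fin 2) : lift2 x l = T (x.1 l) + A l x.2 := rfl

/-! ### The complex -/

theorem zc_kz (g : R) : zc (kz g) = 0 := by
  simp only [zc, kz_zero, kz_one]; ring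

theorem kz_injective : Function.Injective kz := fun g g' h =>
  mul_left_cancel₀ (X_ne_zero _) (congrFun h 0 : zv 1 * g = zv 1 * g')

theorem curl_hd3 (w : R) : curl (hd3 w) = 0 := by
  rw [curl_apply, hd3_apply, hd3_apply, A_comm, sub_self]

theorem hd3_injective : Function.Injective hd3 := fun _ _ h => A_injective 0 (congrFun h 0)

/-- The last differential of the first complex without auxiliary pairs. -/
theorem d1_zero (h : Fin 2 → R) : acts.d1 0 (h, 0) = curl fun l => T (h l) := by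
  have hw : ∀ l (f : R), acts.WH 0 l f = A l (T f) := fun l f => by
    rw [Acts.WH]
    simp [Acts.cj, acts_T, acts_A, acts_P, T_A]
  simp only [Acts.d1, hw, curl_apply]
  simp [acts_zP, zc, acts_A, acts_Y]

/-- The compatibility of the last two links. -/
theorem link3 (p : Fin 2 → Fin 2 → R) (hp : ∀ l r s, dy s (p l r) = 0) (l : Fin 2) :
    T ((acts.d2 0 p).1 l) = A l (-(zv 0 * zc (p 0) + zv 1 * zc (p 1))) := by
  have hz : ∀ m s, dy s (zc (p m)) = 0 := fun m s => by simp [zc, dy_zv_mul, hp]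
  have hT : ∀ (r : Fin 2) (v : R), (∀ s, dy s v = 0) → T (yv r * v) = zv r * v := fun r v hv => by
    rw [T_apply, dy_yv_mul, dy_yv_mul, hv, hv]
    fin_cases r <;> simp
  rw [d2_fst, map_add, map_smul, T_A, yc, map_add, map_add, hT _ _ (hp l 0), hT _ _ (hp l 1),
    map_add, hT 0 (-zc (p 0)) (by simp [hz]), hT 1 (-zc (p 1)) (by simp [hz]), map_add,
    dy_yv_mul, dy_yv_mul]
  fin_cases l <;> simp [hz, hp, Acts.cj, A_zv_mul, zc, dy_zv_mul] <;> ring

/-! ### Single rows -/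

theorem zc_line {d b : ℤ} (hb : 0 ≤ b) {f : R} (hf : f ∈ K0 d b) :
    ∃ P ∈ K1 d b, zcL P = f := by
  obtain ⟨P, hP, e⟩ := zc_surj hb hf
  exact ⟨P, ⟨fun r => S_mono (by omega) (hP r), e ▸ hf⟩, e⟩

theorem curl_line {d b : ℤ} (hb : b ≤ 0) {g : R} (hg : g ∈ L1 d b) :
    ∃ h ∈ K2 d b, curl h = g := by
  have happ : app g = 0 := by
    have := app_mem (show g ∈ S (d + 2) (b - 1) 0 from hg)
    rwa [Model.H_neg (by omega), Submodule.mem_bot] at this
  obtain ⟨u, hu, e⟩ := app_ker (show g ∈ S (d + 2) (b - 1) 0 from hg) happ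
  refine ⟨![u 1, -u 0], mem_K2.2 fun l => ?_, ?_⟩
  · have h' : ∀ l, u l ∈ S (d + 1) b 0 := fun l => S_cast (by ring) (by ring) rfl (hu l)
    fin_cases l
    · exact h' 1
    · exact neg_mem (h' 0)
  · rw [curl_apply, e]
    simp [add_comm]

theorem const_split {d b : ℤ} (hb : 0 ≤ b) {f : R} (hf : f ∈ S d b 0) :
    ∃ (a : ℚ) (v : Fin 2 → R), (0 < b → a = 0) ∧ (∀ r, v r ∈ S d (b - 1) 0) ∧
      f = C a + zc v := by
  obtain ⟨lo, hlo, hi, hhi, e⟩ := exists_split {e : V →₀ ℕ | e = 0} hf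
  have hlo' : lo = C (lo.coeff 0) := by
    ext e
    rw [coeff_C]
    by_cases he : 0 = e
    · subst he; simp
    · rw [if_neg he]
      by_contra hne
      exact he (((mem_restrictSupport_iff ℚ).1 hlo (mem_support_iff.2 hne)).2).symm
  have key : restrictSupport ℚ (expSet d b 0 ∩ {e : V →₀ ℕ | e = 0}ᶜ) ≤
      (S d (b - 1) 0).map (LinearMap.mulLeft ℚ (zv 0)) ⊔
        (S d (b - 1) 0).map (LinearMap.mulLeft ℚ (zv 1)) := by
    rw [restrictSupport_eq_span, Submodule.span_le]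
    rintro _ ⟨e, ⟨⟨h0, h1, h2⟩, hne⟩, rfl⟩
    simp only [deg] at h0 h1 h2
    obtain ⟨k, hk⟩ : ∃ k : Fin 2, 1 ≤ e (1, k) := by
      by_contra hno
      push Not at hno
      have z0 := hno 0
      have z1 := hno 1
      refine hne (Finsupp.ext fun ⟨i, k⟩ => ?_)
      fin_cases i <;> fin_cases k <;> simp at h1 h2 ⊢ <;> omega
    have he : zv k * monomial (e - Finsupp.single (1, k) 1) (1 : ℚ) = monomial e 1 := by
      rw [zv, X, monomial_mul, one_mul, add_tsub_cancel_of_le (Finsupp.single_le_iff.2 hk)]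
    have hm : monomial (e - Finsupp.single (1, k) 1) (1 : ℚ) ∈ S d (b - 1) 0 :=
      mem_of_zv_mul k (by rw [he]; exact mono_mem 1 ⟨h0, h1, h2⟩)
    fin_cases k
    exacts [Submodule.mem_sup_left ⟨_, hm, he⟩, Submodule.mem_sup_right ⟨_, hm, he⟩]
  obtain ⟨_, ⟨v0, hv0, rfl⟩, _, ⟨v1, hv1, rfl⟩, e'⟩ := Submodule.mem_sup.1 (key hhi)
  refine ⟨lo.coeff 0, ![v0, v1], fun hpos => ?_, Fin.forall_fin_two.2 ⟨hv0, hv1⟩, ?_⟩
  · by_contra hne
    have h1 := ((mem_restrictSupport_iff ℚ).1 hlo (mem_support_iff.2 hne)).1.2.1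
    simp [deg] at h1
    omega
  · rw [e, ← e']
    conv_lhs => rw [hlo']
    simp [zc]

theorem lift2_line {d b : ℤ} (hb : 0 < b ∨ 0 ≤ b ∧ 0 ≤ d) {c : Fin 2 → R} (hc : c ∈ K2 d b) :
    ∃ x ∈ L2 d b, lift2 x = c := by
  have hb0 : 0 ≤ b := by omega
  choose a v ha hv e using fun l => const_split hb0 (mem_K2.1 hc l)
  let w : R := -(C (a 0) * zv 0 + C (a 1) * zv 1)
  have hw : w ∈ S d (b + 1) 0 := by
    by_cases hpos : 0 < b
    · simp [w, ha 0 hpos, ha 1 hpos]
    · obtain ⟨rfl, hd⟩ : b = 0 ∧ 0 ≤ d := by omega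
      have h1 : ∀ k, zv k ∈ S d (0 + 1) 0 := fun k => by
        refine mono_mem 1 ?_
        fin_cases k <;> simp [expSet, deg, hd]
      refine neg_mem (add_mem ?_ ?_) <;>
      · rw [← smul_eq_C_mul]
        exact Submodule.smul_mem _ _ (h1 _)
  -- the remainder is a multiple of the variables
  let v' : Fin 2 → Fin 2 → R := fun l r => v l r + C (a r) * xv l
  have hv' : ∀ l r, v' l r ∈ S (d + 1) (b - 1) 0 := by
    intro l r
    refine add_mem (hv l r) ?_
    by_cases hpos : 0 < b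
    · simp [ha r hpos]
    · obtain ⟨rfl, hd⟩ : b = 0 ∧ 0 ≤ d := by omega
      rw [← smul_eq_C_mul]
      refine Submodule.smul_mem _ _ (mono_mem 1 ?_)
      fin_cases l <;> simp [expSet, deg] <;> omega
  refine ⟨(fun l => yv 0 * v' l 0 + yv 1 * v' l 1, w), mem_L2.2 ⟨fun l => ?_, hw⟩, ?_⟩
  · exact add_mem (S_cast rfl rfl (by ring) (yv_mul_mem 0 (hv' l 0)))
      (S_cast rfl rfl (by ring) (yv_mul_mem 1 (hv' l 1)))
  · funext l
    rw [lift2_apply, map_add, T_yv_mul 0 (hv' l 0), T_yv_mul 1 (hv' l 1), e l]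
    have hA : ∀ k, A l (C (a k) * zv k) =
        zv k * (xv l * C (a k)) - if l = k then C (a k) else 0 := fun k => by
      have h0 : dz l (C (a k) : R) = 0 := pderiv_C
      rw [mul_comm (C (a k)) (zv k), A_zv_mul, A_apply, h0, sub_zero]
    simp only [w, v', zc, map_neg, map_add, hA]
    fin_cases l <;> simp <;> ring

/-! ### Rows -/

theorem K1_lmem {d b : ℤ} (k : Fin 2) {x : Fin 2 → R} (hx : x ∈ K1 d b) :
    lzPi (Fin 2) k x ∈ K1 d (b + 1) := by
  refine ⟨fun r => lz_mem k (hx.1 r), ?_⟩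
  show zc (fun r => lz k (x r)) ∈ _
  rw [← lz_zc]
  exact lz_mem k hx.2

theorem lz_comm10 (x : R) : lz 1 (lz 0 x) = lz 0 (lz 1 x) := lz_comm 1 0 x

theorem K0_decomp (c : ℕ) {b : ℤ} {y0 y1 : R} (h0 : y0 ∈ K0 0 b) (h1 : y1 ∈ K0 0 b)
    (h : lz 1 y0 - lz 0 y1 ∈ K0 (-c) (b + 1)) :
    ∃ z ∈ K0 0 (b - 1), y0 + lz 0 z ∈ K0 (-c) b ∧ y1 + lz 1 z ∈ K0 (-c) b := by
  obtain ⟨z, hz, z0, z1⟩ := left_decomp c h0 h1 (S_cast (by ring) rfl rfl h)
  exact ⟨z, S_cast rfl (by ring) rfl hz, S_cast (by ring) rfl rfl z0, S_cast (by ring) rfl rfl z1⟩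

theorem L1_decomp (c : ℕ) {b : ℤ} {y0 y1 : R} (h0 : y0 ∈ L1 0 b) (h1 : y1 ∈ L1 0 b)
    (h : lz 1 y0 - lz 0 y1 ∈ L1 (-c) (b + 1)) :
    ∃ z ∈ L1 0 (b - 1), y0 + lz 0 z ∈ L1 (-c) b ∧ y1 + lz 1 z ∈ L1 (-c) b := by
  obtain ⟨z, hz, z0, z1⟩ := left_decomp c h0 h1 (S_cast (by ring) (by ring) rfl h)
  exact ⟨z, hz, S_cast (by ring) rfl rfl z0, S_cast (by ring) rfl rfl z1⟩

theorem K2_decomp (c : ℕ) {b : ℤ} {y0 y1 : Fin 2 → R} (h0 : y0 ∈ K2 0 b) (h1 : y1 ∈ K2 0 b)
    (h : lzPi (Fin 2) 1 y0 - lzPi (Fin 2) 0 y1 ∈ K2 (-c) (b + 1)) :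
    ∃ z ∈ K2 0 (b - 1), y0 + lzPi (Fin 2) 0 z ∈ K2 (-c) b ∧
      y1 + lzPi (Fin 2) 1 z ∈ K2 (-c) b := by
  choose z hz z0 z1 using fun l => left_decomp c (mem_K2.1 h0 l) (mem_K2.1 h1 l)
    (S_cast (by ring) rfl rfl (mem_K2.1 h l))
  exact ⟨z, mem_K2.2 hz, mem_K2.2 fun l => S_cast (by ring) rfl rfl (z0 l),
    mem_K2.2 fun l => S_cast (by ring) rfl rfl (z1 l)⟩

/-- The contraction is onto the bottom of the head, except at the vertex of the simple module in
level zero. -/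
theorem zc_rows {t : ℤ} (ht : 0 ≤ t) (u : Model.Ob) (hline : ∀ a s, u = .line a s → (s : ℤ) ≤ t)
    (hpair : ∀ c, u = .pair c → 1 ≤ c ∧ c ≤ 2) {y : Fin u.rk → R} (hy : Rows lz K0 t u y) :
    ∃ x, Rows (lzPi (Fin 2)) K1 t u x ∧ ∀ i, zc (x i) = y i := by
  have D : LiftData (lx := lzPi (Fin 2)) (P := K1) (ly := lz) (Q := K0) zcL :=
    { comm := fun k x => by rw [zcL_apply, zcL_apply, lz_zc]; rfl
      lcomm := fun x => funext fun i => lz_comm10 _
      lmem := fun k _ hx => K1_lmem k hx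
      mono := fun h _ hx => ⟨fun r => S_mono (by omega) (hx.1 r), S_mono h hx.2⟩
      decomp := K0_decomp }
  by_cases hsmall : 1 ≤ t ∨ ∃ a s, u = .line a s
  · refine D.lift u (fun a s hu y hy => zc_line (by have := hline a s hu; omega) hy)
      (fun c hu => ⟨fun y hy => zc_line ht hy, fun y hy => zc_line ?_ hy⟩) hy
    rcases hsmall with h | ⟨a, s, h⟩
    · omega
    · simp [hu] at h
  push Not at hsmall
  obtain ⟨ht1, hnl⟩ := hsmall
  obtain rfl : t = 0 := by omega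
  cases u with
  | line a s => exact absurd rfl (hnl a s)
  | pair c =>
    obtain ⟨hc1, hc2⟩ := hpair c rfl
    obtain ⟨z, hz, z0, z1⟩ := K0_decomp c hy.1 hy.2.1 hy.2.2
    have hbot : ∀ {f : R}, f ∈ K0 (-c) 0 → f = 0 := fun {f} hf => by
      rwa [K0, S_eq_bot (Or.inl (by omega)), Submodule.mem_bot] at hf
    have hz1 : z = C (z.coeff 0) := by
      obtain ⟨a, v, -, hv, e⟩ := const_split (d := 0) (b := 0) le_rfl (S_cast rfl (by ring) rfl hz)
      have hv0 : ∀ r, v r = 0 := fun r => by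
        have := hv r
        rwa [S_eq_bot (Or.inr (Or.inr (by omega))), Submodule.mem_bot] at this
      rw [e]
      simp [zc, hv0]
    set a := z.coeff 0
    have hlz : ∀ k, lz k z = C a * zv k := fun k => by
      rw [hz1, lz_apply, pderiv_C]; ring
    let x : Fin 2 → Fin 2 → R := ![![-C a, 0], ![0, -C a]]
    refine ⟨x, ⟨?_, ?_, ?_⟩, fun i => ?_⟩
    · refine ⟨fun r => ?_, ?_⟩
      · fin_cases r
        · exact neg_mem (mono_mem a ⟨by simp [deg], by simp [deg], by simp [deg]⟩)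
        · exact zero_mem _
      · rw [show zc (x 0) = -(C a * zv 0) by simp [x, zc]; ring, ← hlz]
        exact neg_mem (S_cast rfl (by ring) rfl (lz_mem 0 hz))
    · refine ⟨fun r => ?_, ?_⟩
      · fin_cases r
        · exact zero_mem _
        · exact neg_mem (mono_mem a ⟨by simp [deg], by simp [deg], by simp [deg]⟩)
      · rw [show zc (x 1) = -(C a * zv 1) by simp [x, zc]; ring, ← hlz]
        exact neg_mem (S_cast rfl (by ring) rfl (lz_mem 1 hz))
    · have e : lzPi (Fin 2) 1 (x 0) - lzPi (Fin 2) 0 (x 1) = kz (-C a) := by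
        funext r
        fin_cases r <;>
          simp [x, lzPi_apply, lz_apply, kz_zero, kz_one, pderiv_C] <;> ring
      show lzPi (Fin 2) 1 (x 0) - lzPi (Fin 2) 0 (x 1) ∈ _
      rw [e]
      refine ⟨fun r => ?_, by rw [zc_kz]; exact zero_mem _⟩
      have h1 : ∀ k, zv k * -C a ∈ S (-c + 2) (0 + 1) 0 := fun k =>
        zv_mul_mem k (neg_mem (mono_mem a ⟨by simp [deg]; omega, by simp [deg], by simp [deg]⟩))
      fin_cases r
      · exact h1 1
      · exact neg_mem (h1 0)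
    · fin_cases i
      · show zc (x 0) = y 0
        rw [show zc (x 0) = -(C a * zv 0) by simp [x, zc]; ring, ← hlz,
          eq_neg_of_add_eq_zero_left (hbot z0)]
      · show zc (x 1) = y 1
        rw [show zc (x 1) = -(C a * zv 1) by simp [x, zc]; ring, ← hlz,
          eq_neg_of_add_eq_zero_left (hbot z1)]

/-- A row killed by the contraction comes from one row a level down. -/
theorem kz_rows {t : ℤ} (u : Model.Ob) {x : Fin u.rk → Fin 2 → R}
    (hx : Rows (lzPi (Fin 2)) K1 t u x) (h : ∀ i, zc (x i) = 0) :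
    ∃ g, Rows lz L1 t u g ∧ ∀ i, kz (g i) = x i := by
  have hex : ∀ i, ∃ g, kz g = x i := fun i => by
    obtain ⟨g, g0, g1⟩ := pair_koszul (show ((1, 0) : V) ≠ (1, 1) by decide) (h i)
    refine ⟨g, funext fun r => ?_⟩
    fin_cases r
    · exact g0.symm
    · exact g1.symm
  choose g hg using hex
  refine ⟨g, Rows.reflect (F := kz) (lx := lz) (ly := lzPi (Fin 2)) (P := L1) (Q := K1)
    (fun k y => ?_) (fun {d b y} hy => ?_) u ?_, hg⟩
  · funext r
    fin_cases r <;> simp [lzPi_apply, kz_zero, kz_one, lz_zv_mul]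
  · exact mem_of_zv_mul 1 (hy.1 0)
  · simpa [hg] using hx

/-- The row at position one of the head. -/
theorem exact1 {t : ℤ} (ht : t ≤ 0) (u : Model.Ob) {x : Fin u.rk → Fin 2 → R}
    (hx : Rows (lzPi (Fin 2)) K1 t u x) (h : ∀ i, zc (x i) = 0) :
    ∃ y, Rows (lzPi (Fin 2)) K2 t u y ∧ ∀ i, kz (curl (y i)) = x i := by
  obtain ⟨g, hg, e⟩ := kz_rows u hx h
  have D : LiftData (lx := lzPi (Fin 2)) (P := K2) (ly := lz) (Q := L1) curl :=
    { comm := fun k x => by simp [curl_apply, lzPi_apply, lz_A, map_sub]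
      lcomm := fun x => funext fun i => lz_comm10 _
      lmem := fun k _ hx => mem_K2.2 fun l => lz_mem k (mem_K2.1 hx l)
      mono := fun h _ hx => mem_K2.2 fun l => S_mono (by omega) (mem_K2.1 hx l)
      decomp := L1_decomp }
  obtain ⟨y, hy, ey⟩ := D.lift u (fun a s _ y hy => curl_line (by omega) hy)
    (fun c _ => ⟨fun y hy => curl_line ht hy, fun y hy => curl_line (by omega) hy⟩) hg
  exact ⟨y, hy, fun i => by rw [ey, e]⟩

/-- The row at position two of the head. -/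
theorem exact2 {t : ℤ} (u : Model.Ob) {x : Fin u.rk → Fin 2 → R}
    (hx : Rows (lzPi (Fin 2)) K2 t u x) (h : ∀ i, kz (curl (x i)) = 0) :
    ∃ w, Rows lz K0 t u w ∧ ∀ i, hd3 (w i) = x i := by
  have hex : ∀ i, ∃ w, hd3 w = x i := fun i => by
    have hc : curl (x i) = 0 := kz_injective ((h i).trans (map_zero kz).symm)
    rw [curl_apply, sub_eq_zero] at hc
    have h2 : xv 0 * tw 1 (x i 1) + xv 1 * -tw 1 (x i 0) = 0 := by
      rw [mul_neg, ← tw_A, ← tw_A, hc, add_neg_cancel]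
    obtain ⟨g, g1, g0⟩ := pair_koszul (show ((0, 0) : V) ≠ (0, 1) by decide) h2
    refine ⟨tw (-1) g, funext fun l => ?_⟩
    rw [hd3_apply, A_tw]
    fin_cases l
    · show tw (-1) (X ((0, 0) : V) * g) = x i 0
      rw [← neg_inj.1 g0, tw_neg_tw]
    · show tw (-1) (X ((0, 1) : V) * g) = x i 1
      rw [← g1, tw_neg_tw]
  choose w hw using hex
  refine ⟨w, Rows.reflect (F := hd3) (lx := lz) (ly := lzPi (Fin 2)) (P := K0) (Q := K2)
    (fun k y => funext fun l => (lz_A k l y).symm) (fun {d b y} hy => ?_) u ?_, hw⟩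
  · exact S_cast (by ring) rfl rfl (mem_of_A 0 (mem_K2.1 hy 0))
  · simpa [hw] using hx

/-- The lift through the second link in the cone. -/
theorem lift2_rows {t : ℤ} (ht : 1 ≤ t) (u : Model.Ob)
    (hline : ∀ a s, u = .line a s → (s : ℤ) < t) {c : Fin u.rk → Fin 2 → R}
    (hc : Rows (lzPi (Fin 2)) K2 t u c) :
    ∃ x, Rows (fun k => (lzPi (Fin 2) k).prodMap (lz k)) L2 t u x ∧
      ∀ i, lift2 (x i) = c i := by
  have D : LiftData (lx := fun k => (lzPi (Fin 2) k).prodMap (lz k)) (P := L2)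
      (ly := lzPi (Fin 2)) (Q := K2) lift2 :=
    { comm := fun k x => funext fun l => by
        simp [lift2_apply, lzPi_apply, lz_A, lz_T]
      lcomm := fun x => Prod.ext (funext fun i => lz_comm10 _) (lz_comm10 _)
      lmem := fun k x hx => mem_L2.2 ⟨fun l => S_cast rfl (by ring) rfl (lz_mem k ((mem_L2.1 hx).1 l)),
        lz_mem k (mem_L2.1 hx).2⟩
      mono := fun h x hx => mem_L2.2 ⟨fun l => S_mono (by omega) ((mem_L2.1 hx).1 l),
        S_mono h (mem_L2.1 hx).2⟩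
      decomp := K2_decomp }
  exact D.lift u (fun a s hu y hy => lift2_line (Or.inl (by have := hline a s hu; omega)) hy)
    (fun c _ => ⟨fun y hy => lift2_line (Or.inl (by omega)) hy,
      fun y hy => lift2_line (Or.inr ⟨by omega, le_rfl⟩) hy⟩) hc

/-- The identity behind the lift: the correction does not change the curl. -/
theorem curl_lift2 (x : (Fin 2 → R) × R) : curl (lift2 x) = acts.d1 0 (x.1, 0) := by
  rw [d1_zero]
  have e : lift2 x = (fun l => T (x.1 l)) + hd3 x.2 := funext fun l => lift2_apply x l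
  rw [e, map_add, curl_hd3, add_zero]

/-- A preimage under the middle differential of a compatible pair has the given last link. -/
theorem link3_unique (p : Fin 2 → Fin 2 → R) (hp : ∀ l r s, dy s (p l r) = 0) {w : R}
    (h : T ((acts.d2 0 p).1 0) + A 0 w = 0) : zv 0 * zc (p 0) + zv 1 * zc (p 1) = w := by
  rw [link3 p hp 0, ← map_add] at h
  have := A_injective 0 (h.trans (map_zero (A 0)).symm)
  exact neg_add_eq_zero.1 this

/-- In level zero the bottom of the head at the vertex of the simple module is the field. -/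
theorem K0_scalar {f : R} (hf : f ∈ K0 0 (-1)) : f = C (f.coeff 0) := by
  obtain ⟨a, v, -, hv, e⟩ := const_split (d := 0) (b := 0) le_rfl (S_cast rfl (by ring) rfl hf)
  have hv0 : ∀ r, v r = 0 := fun r => by
    have := hv r
    rwa [S_eq_bot (Or.inr (Or.inr (by omega))), Submodule.mem_bot] at this
  rw [e]
  simp [zc, hv0]

end Vale.Agent.P195.Gamma.ExactA.Head
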