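import Vale.Agent.P195.Gamma.ExactA.RowBridge
import Vale.Agent.P195.Gamma.ExactA.Head

/-!
The positions of the head and of the start of the next complex described by symbols, and the
formulas there.
-/

namespace Vale.Agent.P195.Gamma

open MvPolynomial Model Symb ExactA

namespace Slot

/-- A single symbol as a family on one component. -/
noncomputable def ψu : Symb.R →ₗ[ℚ] (Unit → OpFam) := LinearMap.pi fun _ => opFam

/-- A pair of symbols as a family on two components. -/
noncomputable def ψp : (Fin 2 → Symb.R) →ₗ[ℚ] (Fin 2 → OpFam) :=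
  LinearMap.pi fun r => opFam ∘ₗ LinearMap.proj r

/-- A pair of symbols as a family in the first part of two pairs. -/
noncomputable def ψl : (Fin 2 → Symb.R) →ₗ[ℚ] (Fin 2 ⊕ Fin 2 → OpFam) :=
  LinearMap.pi fun
    | .inl l => opFam ∘ₗ LinearMap.proj l
    | .inr _ => 0

theorem opFam_zc (p : Fin 2 → Symb.R) : opFam (zc p) = zPL (ψp p) := by
  rw [zc, map_add, opFam_Z, opFam_Z]
  rfl

theorem ψu_comm (l : Fin 2) (f : Symb.R) : ψu (lz l f) = mlt (MvPolynomial.X l) • ψu f :=
  _root_.funext fun _ => opFam_lz l f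

theorem ψp_comm (l : Fin 2) (f : Fin 2 → Symb.R) :
    ψp (lzPi (Fin 2) l f) = mlt (MvPolynomial.X l) • ψp f :=
  _root_.funext fun r => opFam_lz l (f r)

theorem ψu_injective : Function.Injective ψu := fun _ _ h => opFam_injective (congrFun h ())

theorem ψp_injective : Function.Injective ψp := fun _ _ h =>
  _root_.funext fun r => opFam_injective (congrFun h r)

theorem sym00 : SymPos 0 0 lz Head.K0 ψu where
  comm := ψu_comm
  inj := ψu_injective
  fwd h := ⟨fun _ => deg_opFam h, mf_opFam h⟩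
  back {d b y} hg hl := by
    obtain ⟨f, hf, e⟩ := exists_opFam le_rfl hl (hg ())
    exact ⟨f, hf, _root_.funext fun _ => e⟩

theorem sym03 : SymPos 0 3 lz Head.K0 ψu where
  comm := ψu_comm
  inj := ψu_injective
  fwd h := ⟨fun _ => deg_opFam h, mf_opFam h⟩
  back {d b y} hg hl := by
    obtain ⟨f, hf, e⟩ := exists_opFam le_rfl hl (hg ())
    exact ⟨f, hf, _root_.funext fun _ => e⟩

theorem sym01 : SymPos 0 1 (lzPi (Fin 2)) Head.K1 ψp where
  comm := ψp_comm
  inj := ψp_injective
  fwd {d b x} h := ⟨fun r => deg_opFam (h.1 r), fun r => mf_opFam (h.1 r),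
    by rw [← opFam_zc]; exact mf_opFam h.2⟩
  back {d b y} hg hl := by
    choose f hf e using fun r => exists_opFam le_rfl (hl.1 r) (hg r)
    have ey : ψp f = y := _root_.funext e
    have hdeg : opActs.Deg (((0 : ℤ) : ℚ)) (zPL y) := Acts.Deg.zP opActs fun r => hg r
    obtain ⟨g, hg', eg⟩ := exists_opFam le_rfl hl.2 hdeg
    refine ⟨f, ⟨hf, ?_⟩, ey⟩
    rwa [opFam_injective ((opFam_zc f).trans ((congrArg zPL ey).trans eg.symm))]

theorem sym02 : SymPos 0 2 (lzPi (Fin 2)) Head.K2 ψp where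
  comm := ψp_comm
  inj := ψp_injective
  fwd {d b x} h := ⟨fun r => deg_opFam (Head.mem_K2.1 h r),
    fun r => mf_opFam (Head.mem_K2.1 h r)⟩
  back {d b y} hg hl := by
    choose f hf e using fun r => exists_opFam le_rfl (hl r) (hg r)
    exact ⟨f, Head.mem_K2.2 hf, _root_.funext e⟩

/-- The last pieces of the first complex. -/
noncomputable def P11 (d b : ℤ) : Submodule ℚ Symb.R := S (d + 2) b 0

/-- The pieces in position two of the first complex. -/
noncomputable def P12 (d b : ℤ) : Submodule ℚ (Fin 2 → Symb.R) :=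
  Submodule.pi Set.univ fun _ => S (d + 1) b 1

theorem mem_P12 {d b : ℤ} {h : Fin 2 → Symb.R} : h ∈ P12 d b ↔ ∀ l, h l ∈ S (d + 1) b 1 :=
  ⟨fun hh l => hh l (Set.mem_univ _), fun hh l _ => hh l⟩

theorem sym11 : SymPos 1 1 lz P11 ψu where
  comm := ψu_comm
  inj := ψu_injective
  fwd h := ⟨fun _ => deg_opFam h, mf_opFam h⟩
  back {d b y} hg hl := by
    obtain ⟨f, hf, e⟩ := exists_opFam le_rfl hl (hg ())
    exact ⟨f, hf, _root_.funext fun _ => e⟩

theorem sym12 : SymPos 1 2 (lzPi (Fin 2)) P12 ψl where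
  comm l f := by
    funext c
    rcases c with r | r
    · exact opFam_lz l (f r)
    · exact (smul_zero (mlt (MvPolynomial.X l))).symm
  inj f f' h := _root_.funext fun l => opFam_injective (congrFun h (.inl l))
  fwd {d b x} h := by
    refine ⟨fun c => ?_, fun l => mf_opFam (mem_P12.1 h l), fun r => OpFam.MF.zero, ?_⟩
    · rcases c with l | r
      · exact deg_of_eq (deg_opFam (mem_P12.1 h l)) (by simp [q])
      · exact deg_zero _
    · show OpFam.MF d (b + 1) (zPL 0)
      rw [map_zero]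
      exact OpFam.MF.zero
  back {d b y} hg hl := by
    choose f hf e using fun l => exists_opFam (n := 1) zero_le_one (hl.1 l)
      (deg_of_eq (hg (.inl l)) (by simp [q]))
    refine ⟨f, mem_P12.2 hf, _root_.funext fun c => ?_⟩
    rcases c with l | r
    · exact e l
    · refine _root_.funext fun m => ((OpFam.deg_iff _ _).1 (hg (.inr r)) m ?_).symm
      have : (0 : ℚ) ≤ ((m.1 + m.2 : ℕ) : ℚ) := Nat.cast_nonneg _
      simp only [q]
      push_cast
      intro hh
      linarith

theorem dF00_ψ (P : Fin 2 → Symb.R) : dF 0 0 (ψp P) = ψu (zc P) :=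
  _root_.funext fun _ => (opFam_zc P).symm

theorem curl_ψ (h : Fin 2 → Symb.R) : curl (ψp h) = opFam (Head.curl h) := by
  rw [Head.curl_apply, map_sub, opFam_A, opFam_A]
  rfl

theorem kz_ψ (g : Symb.R) : kz (opFam g) = ψp (Head.kz g) := by
  funext r
  fin_cases r
  · exact (opFam_Z 1 g).symm
  · show -(opActs.Z 0 (opFam g)) = opFam (-(zv 0 * g))
    rw [map_neg, opFam_Z]

theorem dF01_ψ (h : Fin 2 → Symb.R) : dF 0 1 (ψp h) = ψp (Head.kz (Head.curl h)) := by
  show kz (curl (ψp h)) = _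
  rw [curl_ψ, kz_ψ]

theorem dF02_ψ (w : Symb.R) : dF 0 2 (ψu w) = ψp (Head.hd3 w) :=
  _root_.funext fun l => (opFam_A l w).symm

theorem fF01_ψ (g : Symb.R) : fF 0 1 (ψu g) = ψp (-Head.kz g) := by
  show ((-1 : ℚ) ^ 1) • kz (opFam g) = _
  rw [pow_one, kz_ψ, map_neg]
  exact neg_one_smul ℚ (ψp (Head.kz g))

theorem fF02_ψ (h : Fin 2 → Symb.R) : fF 0 2 (ψl h) = ψp fun l => T (h l) := by
  show ((-1 : ℚ) ^ 2) • fF0 0 2 (ψl h) = _
  rw [neg_one_sq, one_smul]
  exact _root_.funext fun l => (opFam_T (h l)).symm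

theorem dF11_ψ (h : Fin 2 → Symb.R) (hh : ∀ l, opActs.Deg 1 (opFam (h l))) :
    dF 1 1 (ψl h) = ψu (Head.curl fun l => T (h l)) := by
  funext _
  show opActs.d1 0 (fun l => opFam (h l), fun _ => 0) = opFam _
  rw [head_square_one _ _ hh (fun _ => deg_zero _), Head.curl_apply, map_sub, Symb.opFam_A,
    Symb.opFam_A, opFam_T, opFam_T]
  rfl

end Slot

end Vale.Agent.P195.Gamma
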