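import Vale.Agent.P195.Gamma.ExactA.Line
import Vale.Agent.P195.Gamma.Left

/-!
Exactness of the complexes seen from a pair object, from exactness seen from the lines: maps out
of a pair are pairs of maps out of the bottom line whose Koszul combination is one out of the top
line, and the combination is onto in every degree.
-/

namespace Vale.Agent.P195.Gamma.ExactA

open MvPolynomial Model Symb

/-- The Koszul combination of a pair. -/
def psi {X : Type*} [AddCommGroup X] [Module ℚ X] (L : Fin 2 → X →ₗ[ℚ] X) (T : Fin 2 → X) : X :=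
  L 1 (T 0) - L 0 (T 1)

/-- Left multiplication on the piece in degree two. -/
noncomputable def lz2 (l : Fin 2) : (Fin 2 → Fin 2 → R) →ₗ[ℚ] (Fin 2 → Fin 2 → R) :=
  ((lz l).compLeft (Fin 2)).compLeft (Fin 2)

/-- Left multiplication on the piece in degree one. -/
noncomputable def lz1 (l : Fin 2) :
    (Fin 2 → R) × (Fin 2 → R) →ₗ[ℚ] (Fin 2 → R) × (Fin 2 → R) :=
  ((lz l).compLeft (Fin 2)).prodMap ((lz l).compLeft (Fin 2))

/-- Left multiplication after augmenting. -/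
noncomputable def lzP (l : Fin 2) : Pol →ₗ[ℚ] Pol := LinearMap.mulLeft ℚ (X l)

/-- Left multiplication commutes with the actions. -/
theorem inter_lz (l : Fin 2) : acts.Inter acts (lz l) where
  Z k w := lz_zv_mul l k w
  A k w := lz_A l k w
  Y k w := lz_yv_mul l k w
  P k w := lz_dy l k w

theorem app_lz (l : Fin 2) (f : R) : app (lz l f) = X l * app f :=
  by
  have h : op (lz l f) = Finsupp.mapRange.linearMap (LinearMap.mulLeft ℚ (mlt (X l))) (op f) :=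
    Finsupp.ext fun m => op_lz l f m
  show (Finsupp.lsum ℚ fun m : ℕ × ℕ => LinearMap.applyₗ (R := ℚ) (zmon m)) (op (lz l f)) = _
  rw [h, app, LinearMap.comp_apply, Finsupp.mapRange.linearMap_apply,
    Finsupp.lsum_apply, Finsupp.lsum_apply, Finsupp.sum_mapRange_index (by simp)]
  rw [Finsupp.sum, Finsupp.sum, Finset.mul_sum]
  rfl

theorem d3_lz (j : ℕ) (l : Fin 2) (g : R) : acts.d3 j (lz l g) = lz2 l (acts.d3 j g) :=
  funext fun a => funext fun b => ((inter_lz l).d3 acts j g a b).symm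

theorem d2_lz (j : ℕ) (l : Fin 2) (p : Fin 2 → Fin 2 → R) :
    acts.d2 j (lz2 l p) = lz1 l (acts.d2 j p) :=
  Prod.ext (funext fun a => ((inter_lz l).d2_fst acts j p a).symm)
    (funext fun r => ((inter_lz l).d2_snd acts j p r).symm)

theorem d1_lz (j : ℕ) (l : Fin 2) (hG : (Fin 2 → R) × (Fin 2 → R)) :
    acts.d1 j (lz1 l hG) = lz l (acts.d1 j hG) :=
  ((inter_lz l).d1 acts j hG).symm

/-! ### Left division by the variables -/

theorem exists_zdecomp {d s q : ℤ} (hs : 0 ≤ s) {f : R} (hf : f ∈ S d s q) :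
    ∃ e ∈ S 0 s q, ∃ g : Fin 2 → R, (∀ l, g l ∈ S d (s - 1) q) ∧ f = e + zc g ∧
      (0 < s → e = 0) := by
  have key : ∀ C : Submodule ℚ R, (∀ e ∈ expSet d s q, deg 1 e = 0 → monomial e 1 ∈ C) →
      S d s q ≤ C ⊔ ((S d (s - 1) q).map (LinearMap.mulLeft ℚ (zv 0)) ⊔
        (S d (s - 1) q).map (LinearMap.mulLeft ℚ (zv 1))) := by
    intro C hC
    conv_lhs => rw [S, restrictSupport_eq_span]
    rw [Submodule.span_le]
    rintro _ ⟨e, he, rfl⟩
    have step : ∀ l : Fin 2, 0 < e (1, l) → monomial e (1 : ℚ) ∈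
        (S d (s - 1) q).map (LinearMap.mulLeft ℚ (zv l)) := by
      intro l hl
      obtain ⟨h0, h1, h2⟩ := he
      refine ⟨monomial (e - Finsupp.single (1, l) 1) 1, mono_mem 1 ?_, ?_⟩
      · simp only [mem_expSet, deg_sub_single _ _ _ hl]
        simp
        omega
      · show zv l * monomial (e - Finsupp.single (1, l) 1) 1 = monomial e 1
        rw [zv, X, monomial_mul, one_mul, add_tsub_cancel_of_le (Finsupp.single_le_iff.2 hl)]
    rcases Nat.eq_zero_or_pos (e (1, 0)) with ha | ha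
    · rcases Nat.eq_zero_or_pos (e (1, 1)) with hb | hb
      · exact Submodule.mem_sup_left (hC e he (by simp [deg, ha, hb]))
      · exact Submodule.mem_sup_right (Submodule.mem_sup_right (step 1 hb))
    · exact Submodule.mem_sup_right (Submodule.mem_sup_left (step 0 ha))
  have main : ∀ C : Submodule ℚ R, (∀ e ∈ expSet d s q, deg 1 e = 0 → monomial e 1 ∈ C) →
      ∃ e ∈ C, ∃ g : Fin 2 → R, (∀ l, g l ∈ S d (s - 1) q) ∧ f = e + zc g := by
    intro C hC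
    obtain ⟨e, he, r, hr, rfl⟩ := Submodule.mem_sup.1 (key C hC hf)
    obtain ⟨_, ⟨a, ha, rfl⟩, _, ⟨b, hb, rfl⟩, rfl⟩ := Submodule.mem_sup.1 hr
    exact ⟨e, he, ![a, b], fun l => by fin_cases l <;> assumption, rfl⟩
  by_cases hs' : 0 < s
  · obtain ⟨e, he, g, hg, hfe⟩ := main ⊥ fun e he h1 => by
      have := deg_nonneg 0 e
      have := he.2.1
      omega
    obtain rfl := (Submodule.mem_bot ℚ).1 he
    exact ⟨0, zero_mem _, g, hg, hfe, fun _ => rfl⟩
  · obtain ⟨e, he, g, hg, hfe⟩ := main (S 0 s q) fun e he h1 => mono_mem 1 (by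
      have := deg_nonneg 0 e
      obtain ⟨h0, h2, h3⟩ := he
      exact ⟨by omega, h2, h3⟩)
    exact ⟨e, he, g, hg, hfe, fun h => absurd h hs'⟩

/-- Up to order zero every symbol is a Koszul combination. -/
theorem exists_psi_decomp : ∀ (n : ℕ) {s q : ℤ}, 0 ≤ s → ∀ {f : R}, f ∈ S (n : ℤ) s q →
    ∃ e ∈ S 0 s q, ∃ U : Fin 2 → R,
      (∀ i, U i ∈ S (n : ℤ) (s - 1) q) ∧ f = e + psi lz U := by
  intro n
  induction n with
  | zero =>
    intro s q _ f hf
    exact ⟨f, by simpa using hf, 0, fun _ => zero_mem _, by simp [psi]⟩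
  | succ n ih =>
    intro s q hs f hf
    obtain ⟨e0, he0, g, hg, rfl, -⟩ := exists_zdecomp hs hf
    have hr : e0 + (pderiv ((0, 0) : V) (g 0) + pderiv ((0, 1) : V) (g 1)) ∈ S (n : ℤ) s q := by
      refine add_mem (S_mono (by omega) he0) (add_mem ?_ ?_)
      · simpa using dx_mem 0 (hg 0)
      · simpa using dx_mem 1 (hg 1)
    obtain ⟨e, he, U, hU, hre⟩ := ih hs hr
    refine ⟨e, he, ![U 0 + g 1, U 1 - g 0], fun i => ?_, ?_⟩
    · fin_cases i
      · exact add_mem (S_mono (by omega) (hU 0)) (hg 1)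
      · exact sub_mem (S_mono (by omega) (hU 1)) (hg 0)
    · simp only [psi, Matrix.cons_val_zero, Matrix.cons_val_one, map_add, map_sub, zc,
        lz_apply] at hre ⊢
      linear_combination hre

theorem psi_decomp {d s q : ℤ} (hd : 0 ≤ d) (hs : 0 ≤ s) {f : R} (hf : f ∈ S d s q) :
    ∃ e ∈ S 0 s q, ∃ U : Fin 2 → R, (∀ i, U i ∈ S d (s - 1) q) ∧ f = e + psi lz U := by
  lift d to ℕ using hd
  exact exists_psi_decomp d hs hf

/-- In positive weight every symbol is a Koszul combination. -/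
theorem psi_surj {d s q : ℤ} (hd : 0 ≤ d) (hs : 0 ≤ s) {f : R} (hf : f ∈ S d (s + 1) q) :
    ∃ U : Fin 2 → R, (∀ i, U i ∈ S d s q) ∧ psi lz U = f := by
  obtain ⟨e, he, U, hU, rfl⟩ := psi_decomp hd (by omega) hf
  obtain ⟨e0, -, g, hg, rfl, h0⟩ := exists_zdecomp (by omega) he
  obtain rfl := h0 (by omega)
  have hdx : ∀ l, pderiv ((0, l) : V) (g l) = 0 := fun l => by
    have := dx_mem l (hg l)
    rwa [S_eq_bot (Or.inl (by norm_num)), Submodule.mem_bot] at this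
  refine ⟨![U 0 + g 1, U 1 - g 0], fun i => ?_, ?_⟩
  · fin_cases i
    · exact add_mem (by simpa using hU 0) (S_mono hd (by simpa using hg 1))
    · exact sub_mem (by simpa using hU 1) (S_mono hd (by simpa using hg 0))
  · simp only [psi, Matrix.cons_val_zero, Matrix.cons_val_one, map_add, map_sub, zc, lz_apply,
      hdx, zero_add]
    ring

/-- The same for the pairs of a kernel lattice. -/
theorem pair_surj {n t q : ℤ} (hn : 0 ≤ n) (ht : 0 ≤ t) {W : Fin 2 → R}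
    (hW : ∀ r, W r ∈ S n (t + 1) q) (hz : zc W ∈ S 0 (t + 1 + 1) q) :
    ∃ U : Fin 2 → Fin 2 → R, (∀ i, (∀ r, U i r ∈ S n t q) ∧ zc (U i) ∈ S 0 (t + 1) q) ∧
      ∀ r, psi lz (fun i => U i r) = W r := by
  obtain ⟨g, hg, k0, k1⟩ := zc_decomp hW hz
  obtain ⟨e, he, V, hV, hge⟩ := psi_decomp hn ht (f := g) (by simpa using hg)
  obtain ⟨K0, hK0, hK0e⟩ := psi_surj (f := W 0 - zv 1 * g + zv 1 * e) le_rfl ht
    (add_mem k0 (zv_mul_mem 1 he))
  obtain ⟨K1, hK1, hK1e⟩ := psi_surj (f := W 1 + zv 0 * g - zv 0 * e) le_rfl ht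
    (sub_mem k1 (zv_mul_mem 0 he))
  refine ⟨fun i => ![K0 i + zv 1 * V i, K1 i - zv 0 * V i], fun i => ⟨fun r => ?_, ?_⟩,
    fun r => ?_⟩
  · fin_cases r
    · exact add_mem (S_mono hn (hK0 i)) (by simpa using zv_mul_mem 1 (hV i))
    · exact sub_mem (S_mono hn (hK1 i)) (by simpa using zv_mul_mem 0 (hV i))
  · have e1 : zc ![K0 i + zv 1 * V i, K1 i - zv 0 * V i] = zv 0 * K0 i + zv 1 * K1 i := by
      simp only [zc, Matrix.cons_val_zero, Matrix.cons_val_one]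
      ring
    rw [e1]
    exact add_mem (zv_mul_mem 0 (hK0 i)) (zv_mul_mem 1 (hK1 i))
  · simp only [psi] at hK0e hK1e hge
    fin_cases r
    · simp only [psi, Fin.zero_eta, Matrix.cons_val_zero, map_add, lz_zv_mul]
      linear_combination hK0e - zv 1 * hge
    · simp only [psi, Fin.mk_one, Matrix.cons_val_one, Matrix.cons_val_fin_one, Matrix.cons_val_zero,
        map_sub, lz_zv_mul]
      linear_combination hK1e + zv 0 * hge

/-! ### The step -/

/-- A lift of a pair of cycles can be corrected into the kernel of the combination. -/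
theorem step {A B C : Type*} [AddCommGroup A] [Module ℚ A] [AddCommGroup B] [Module ℚ B]
    [AddCommGroup C] [Module ℚ C] {d : A →ₗ[ℚ] B} {e : C →ₗ[ℚ] A}
    {LA : Fin 2 → A →ₗ[ℚ] A} {LB : Fin 2 → B →ₗ[ℚ] B} {LC : Fin 2 → C →ₗ[ℚ] C}
    (hd : ∀ l a, d (LA l a) = LB l (d a)) (he : ∀ l c, e (LC l c) = LA l (e c))
    {A0 A1 Ac : Submodule ℚ A} {C0 C1 : Submodule ℚ C}
    (inc : Ac ≤ A1) (hpsi : ∀ U, (∀ i, U i ∈ A0) → psi LA U ∈ A1)
    (he0 : ∀ c ∈ C0, e c ∈ A0) (hde : ∀ c ∈ C0, d (e c) = 0)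
    (ex : ∀ w ∈ A1, d w = 0 → ∃ W ∈ C1, e W = w)
    (surjC : ∀ W ∈ C1, ∃ U, (∀ i, U i ∈ C0) ∧ psi LC U = W)
    {T : Fin 2 → B} (hT : ∀ i, ∃ a ∈ A0, d a = T i) (hK : ∃ a ∈ Ac, d a = psi LB T) :
    ∃ U, (∀ i, U i ∈ A0) ∧ psi LA U ∈ Ac ∧ ∀ i, d (U i) = T i := by
  choose U hU hUT using hT
  obtain ⟨K, hK, hKT⟩ := hK
  have h1 : d (psi LA U) = psi LB T := by
    simp only [psi, map_sub, hd, hUT]
  obtain ⟨W, hW, hWe⟩ := ex _ (sub_mem (hpsi U hU) (inc hK))
    (by rw [map_sub, h1, hKT, sub_self])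
  obtain ⟨V, hV, hVW⟩ := surjC W hW
  refine ⟨fun i => U i - e (V i), fun i => sub_mem (hU i) (he0 _ (hV i)), ?_, fun i => ?_⟩
  · have h2 : psi LA (fun i => U i - e (V i)) = psi LA U - e (psi LC V) := by
      simp only [psi, map_sub, he]
      abel
    rw [h2, hVW, hWe, sub_sub_cancel]
    exact hK
  · rw [map_sub, hUT, hde _ (hV i), sub_zero]

/-! ### Membership -/

theorem zc_psi (T : Fin 2 → Fin 2 → R) :
    zc (fun r => psi lz fun i => T i r) = psi lz fun i => zc (T i) := by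
  simp only [zc, psi, map_add, lz_zv_mul]
  ring

theorem M3_mono {a a' t : ℤ} {j : ℕ} (h : a' ≤ a) : M3 a t j ≤ M3 a' t j :=
  S_mono (by omega)

theorem M2_mono {a a' t : ℤ} {j : ℕ} (h : a' ≤ a) : M2 a t j ≤ M2 a' t j := fun _ hp l =>
  ⟨fun r => S_mono (by omega) ((hp l).1 r), S_mono (by omega) (hp l).2⟩

theorem M1_mono {a a' t : ℤ} {j : ℕ} (h : a' ≤ a) : M1 a t j ≤ M1 a' t j := fun _ hp =>
  ⟨fun l => S_mono (by omega) (hp.1 l), fun r => S_mono (by omega) (hp.2.1 r),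
    S_mono (by omega) hp.2.2⟩

theorem M0_mono {a a' t : ℤ} {j : ℕ} (h : a' ≤ a) : M0 a t j ≤ M0 a' t j :=
  S_mono (by omega)

theorem M3_psi {a t : ℤ} {j : ℕ} {U : Fin 2 → R} (h : ∀ i, U i ∈ M3 a t j) :
    psi lz U ∈ M3 a (t + 1) j := sub_mem (lz_mem 1 (h 0)) (lz_mem 0 (h 1))

theorem M2_psi {a t : ℤ} {j : ℕ} {U : Fin 2 → Fin 2 → Fin 2 → R} (h : ∀ i, U i ∈ M2 a t j) :
    psi lz2 U ∈ M2 a (t + 1) j := fun l => by
  refine ⟨fun r => sub_mem (lz_mem 1 ((h 0 l).1 r)) (lz_mem 0 ((h 1 l).1 r)), ?_⟩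
  have : zc (psi lz2 U l) = psi lz fun i => zc (U i l) := zc_psi fun i => U i l
  rw [this]
  exact sub_mem (lz_mem 1 (h 0 l).2) (lz_mem 0 (h 1 l).2)

theorem M1_psi {a t : ℤ} {j : ℕ} {U : Fin 2 → (Fin 2 → R) × (Fin 2 → R)}
    (h : ∀ i, U i ∈ M1 a t j) : psi lz1 U ∈ M1 a (t + 1) j := by
  refine ⟨fun l => sub_mem (lz_mem 1 ((h 0).1 l)) (lz_mem 0 ((h 1).1 l)),
    fun r => sub_mem (lz_mem 1 ((h 0).2.1 r)) (lz_mem 0 ((h 1).2.1 r)), ?_⟩
  have : zc (psi lz1 U).2 = psi lz fun i => zc (U i).2 := zc_psi fun i => (U i).2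
  rw [this]
  exact sub_mem (lz_mem 1 (h 0).2.2) (lz_mem 0 (h 1).2.2)

theorem M0_psi {a t : ℤ} {j : ℕ} {U : Fin 2 → R} (h : ∀ i, U i ∈ M0 a t j) :
    psi lz U ∈ M0 a (t + 1) j := sub_mem (lz_mem 1 (h 0)) (lz_mem 0 (h 1))

/-! ### Surjectivity of the combination on the pieces -/

variable {t : ℤ} {j : ℕ}

theorem surj3 (ht : 0 ≤ t) (W : R) (hW : W ∈ M3 0 (t + 1) j) :
    ∃ U, (∀ i, U i ∈ M3 0 t j) ∧ psi lz U = W := by
  obtain ⟨U, hU, e⟩ := psi_surj le_rfl ht (d := 0) (by simpa [M3] using hW)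
  exact ⟨U, fun i => by simpa [M3] using hU i, e⟩

theorem surj2 (ht : 0 ≤ t) (W : Fin 2 → Fin 2 → R) (hW : W ∈ M2 0 (t + 1) j) :
    ∃ U, (∀ i, U i ∈ M2 0 t j) ∧ psi lz2 U = W := by
  choose U hU e using fun l => pair_surj (n := 1) (by norm_num) ht (W := W l) (t := t) (q := j)
    (fun r => by simpa using (hW l).1 r) (by simpa using (hW l).2)
  exact ⟨fun i l r => U l i r, fun i l =>
    ⟨fun r => by simpa using (hU l i).1 r, by simpa using (hU l i).2⟩,
    funext fun l => funext fun r => e l r⟩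

theorem surj1 (ht : 0 ≤ t) (W : (Fin 2 → R) × (Fin 2 → R)) (hW : W ∈ M1 0 (t + 1) j) :
    ∃ U, (∀ i, U i ∈ M1 0 t j) ∧ psi lz1 U = W := by
  choose H hH eH using fun l => psi_surj (d := 1) (by norm_num) ht (q := (j : ℤ) + 1) (f := W.1 l)
    (by simpa using hW.1 l)
  obtain ⟨G, hG, eG⟩ := pair_surj (n := 2) (by norm_num) ht (W := W.2) (q := (j : ℤ) - 1)
    (fun r => by simpa using hW.2.1 r) (by simpa using hW.2.2)
  exact ⟨fun i => (fun l => H l i, G i), fun i =>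
    ⟨fun l => by simpa using hH l i, fun r => by simpa using (hG i).1 r,
      by simpa using (hG i).2⟩,
    Prod.ext (funext eH) (funext eG)⟩

/-! ### The composites vanish -/

theorem pair_deg {d t q : ℤ} {f : R} (hf : f ∈ S d t q) : acts.Deg (q : ℚ) f := euler hf

theorem pair_aug : acts.Aug app where
  Z l w := by
    show app (zv l * w) = app (yv l * w)
    rw [← app_res, ← app_res (yv l * w)]
    simp [res_zv, res_yv]
  A l w := app_A_gen l w

theorem d2_d3 {a t : ℤ} {g : R} (hg : g ∈ M3 a t j) : acts.d2 j (acts.d3 j g) = 0 :=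
  have h : acts.Deg (j : ℚ) g := by simpa using pair_deg hg
  Prod.ext (funext fun l => acts.d2_d3_fst j g h l) (funext fun r => acts.d2_d3_snd j g h r)

theorem d1_d2 {a t : ℤ} {p : Fin 2 → Fin 2 → R} (hp : p ∈ M2 a t j) :
    acts.d1 j (acts.d2 j p) = 0 :=
  acts.d1_d2 j p fun l r => by simpa using pair_deg ((hp l).1 r)

theorem app_d1 {a t : ℤ} {hG : (Fin 2 → R) × (Fin 2 → R)} (h : hG ∈ M1 a t j) :
    app (acts.d1 j hG) = 0 :=
  Acts.eps_d1 acts pair_aug j hG (fun l => by simpa using pair_deg (h.1 l))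
    (fun r => by simpa using pair_deg (h.2.1 r))

/-- `d3` as a linear map on symbols. -/
noncomputable abbrev D3 (j : ℕ) : R →ₗ[ℚ] (Fin 2 → Fin 2 → R) := acts.d3L j

/-- `d2` as a linear map on symbols. -/
noncomputable abbrev D2 (j : ℕ) :
    (Fin 2 → Fin 2 → R) →ₗ[ℚ] (Fin 2 → R) × (Fin 2 → R) := acts.d2L j

/-- `d1` as a linear map on symbols. -/
noncomputable abbrev D1 (j : ℕ) : (Fin 2 → R) × (Fin 2 → R) →ₗ[ℚ] R := acts.d1L j

/-! ### Exactness seen from a pair -/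

section
variable {c : ℤ} (hc : 0 ≤ c) (ht : 0 ≤ t)

theorem pair_exact3 (T : Fin 2 → R) (hT : ∀ i, T i ∈ M3 0 t j)
    (hd : ∀ i, acts.d3 j (T i) = 0) : T = 0 := by
  funext i
  rw [Pi.zero_apply]
  exact exact3 (s := 0) (t := t) (hT i) (hd i)

include hc ht

theorem pair_exact2 (T : Fin 2 → Fin 2 → Fin 2 → R) (hT : ∀ i, T i ∈ M2 0 t j)
    (hψ : psi lz2 T ∈ M2 c (t + 1) j) (hd : ∀ i, acts.d2 j (T i) = 0) :
    ∃ U, (∀ i, U i ∈ M3 0 t j) ∧ psi lz U ∈ M3 c (t + 1) j ∧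
      ∀ i, acts.d3 j (U i) = T i := by
  have hz : acts.d2 j (psi lz2 T) = 0 := by
    show D2 j (psi lz2 T) = 0
    rw [psi, map_sub]
    show acts.d2 j (lz2 1 (T 0)) - acts.d2 j (lz2 0 (T 1)) = 0
    rw [d2_lz, d2_lz, hd, hd, map_zero, map_zero, sub_zero]
  exact step (d := D3 j) (e := (0 : R →ₗ[ℚ] R)) (LA := lz) (LB := lz2) (LC := lz)
    (A0 := M3 0 t j) (A1 := M3 0 (t + 1) j) (Ac := M3 c (t + 1) j) (C0 := ⊥) (C1 := ⊥)
    (fun l a => d3_lz j l a) (fun l c => by simp) (M3_mono hc)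
    (fun _ => M3_psi) (fun c _ => zero_mem _) (fun _ _ => map_zero _)
    (fun w hw hd => ⟨0, zero_mem _, (exact3 hw hd).symm⟩)
    (fun W hW => ⟨0, fun _ => zero_mem _, by simp [psi, (Submodule.mem_bot ℚ).1 hW]⟩)
    (fun i => exact2 ht (hT i) (hd i)) (exact2 (by omega) hψ hz)

theorem pair_exact1 (T : Fin 2 → (Fin 2 → R) × (Fin 2 → R)) (hT : ∀ i, T i ∈ M1 0 t j)
    (hψ : psi lz1 T ∈ M1 c (t + 1) j) (hd : ∀ i, acts.d1 j (T i) = 0) :
    ∃ U, (∀ i, U i ∈ M2 0 t j) ∧ psi lz2 U ∈ M2 c (t + 1) j ∧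
      ∀ i, acts.d2 j (U i) = T i := by
  have hz : acts.d1 j (psi lz1 T) = 0 := by
    show D1 j (psi lz1 T) = 0
    rw [psi, map_sub]
    show acts.d1 j (lz1 1 (T 0)) - acts.d1 j (lz1 0 (T 1)) = 0
    rw [d1_lz, d1_lz, hd, hd, map_zero, map_zero, sub_zero]
  exact step (d := D2 j) (e := D3 j) (LA := lz2) (LB := lz1) (LC := lz)
    (A0 := M2 0 t j) (A1 := M2 0 (t + 1) j) (Ac := M2 c (t + 1) j)
    (C0 := M3 0 t j) (C1 := M3 0 (t + 1) j)
    (fun l a => d2_lz j l a) (fun l a => d3_lz j l a) (M2_mono hc)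
    (fun _ => M2_psi) (fun _ h => d3_mem h) (fun _ h => d2_d3 h)
    (fun _ hw hd => exact2 (by omega) hw hd) (surj3 ht)
    (fun i => exact1 ht (hT i) (hd i)) (exact1 (by omega) hψ hz)

theorem pair_exact0 (T : Fin 2 → R) (hT : ∀ i, T i ∈ M0 0 t j)
    (hψ : psi lz T ∈ M0 c (t + 1) j) (hd : ∀ i, app (T i) = 0) :
    ∃ U, (∀ i, U i ∈ M1 0 t j) ∧ psi lz1 U ∈ M1 c (t + 1) j ∧
      ∀ i, acts.d1 j (U i) = T i := by
  have hz : app (psi lz T) = 0 := by
    simp [psi, app_lz, hd]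
  exact step (d := D1 j) (e := D2 j) (LA := lz1) (LB := lz) (LC := lz2)
    (A0 := M1 0 t j) (A1 := M1 0 (t + 1) j) (Ac := M1 c (t + 1) j)
    (C0 := M2 0 t j) (C1 := M2 0 (t + 1) j)
    (fun l a => d1_lz j l a) (fun l a => d2_lz j l a) (M1_mono hc)
    (fun _ => M1_psi) (fun _ h => d2_mem h) (fun _ h => d1_d2 h)
    (fun _ hw hd => exact1 (by omega) hw hd) (surj2 ht)
    (fun i => exact0 ht (hT i) (hd i)) (exact0 (by omega) hψ hz)

theorem pair_eps_surj (hc2 : c ≤ 2) (p : Fin 2 → Pol) (hp : ∀ i, p i ∈ H (t + j)) :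
    ∃ U, (∀ i, U i ∈ M0 0 t j) ∧ psi lz U ∈ M0 c (t + 1) j ∧ ∀ i, app (U i) = p i := by
  have hz : psi lzP p ∈ H (t + 1 + j) := by
    have hX : ∀ l i, (X l : Pol) * p i ∈ H (t + 1 + j) := fun l i => by
      have := mul_mem_H (X_mem_H l) (hp i)
      rwa [show 1 + (t + (j : ℤ)) = t + 1 + j by ring] at this
    exact sub_mem (hX 1 0) (hX 0 1)
  exact step (d := app) (e := D1 j) (LA := lz) (LB := lzP) (LC := lz1)
    (A0 := M0 0 t j) (A1 := M0 0 (t + 1) j) (Ac := M0 c (t + 1) j)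
    (C0 := M1 0 t j) (C1 := M1 0 (t + 1) j)
    (fun l a => app_lz l a) (fun l a => d1_lz j l a) (M0_mono hc)
    (fun _ => M0_psi) (fun _ h => d1_mem h) (fun _ h => app_d1 h)
    (fun _ hw hd => exact0 (by omega) hw hd) (surj1 ht)
    (fun i => eps_surj (by norm_num) ht (hp i)) (eps_surj hc2 (by omega) hz)

end

end Vale.Agent.P195.Gamma.ExactA
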