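import Vale.Agent.P195.Gamma.ExactA.Cone
import Vale.Agent.P195.Gamma.ExactA.Pair

/-!
The cones of the comparison maps seen from a pair object are exact.
-/

namespace Vale.Agent.P195.Gamma.ExactA

open MvPolynomial Symb

variable {c : ℤ} {t : ℤ} {J : ℕ}

/-- Pairs over the last pieces. -/
def P0 (c t : ℤ) (j : ℕ) (T : Fin 2 → R) : Prop :=
  (∀ i, T i ∈ M0 0 t j) ∧ psi lz T ∈ M0 c (t + 1) j

/-- Pairs over the first pieces. -/
def P1 (c t : ℤ) (j : ℕ) (T : Fin 2 → (Fin 2 → R) × (Fin 2 → R)) : Prop :=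
  (∀ i, T i ∈ M1 0 t j) ∧ psi lz1 T ∈ M1 c (t + 1) j

/-- Pairs over the middle pieces. -/
def P2 (c t : ℤ) (j : ℕ) (T : Fin 2 → Fin 2 → Fin 2 → R) : Prop :=
  (∀ i, T i ∈ M2 0 t j) ∧ psi lz2 T ∈ M2 c (t + 1) j

/-- Pairs over the third pieces. -/
def P3 (c t : ℤ) (j : ℕ) (T : Fin 2 → R) : Prop :=
  (∀ i, T i ∈ M3 0 t j) ∧ psi lz T ∈ M3 c (t + 1) j

theorem psi_map {X Y : Type*} [AddCommGroup X] [Module ℚ X] [AddCommGroup Y] [Module ℚ Y]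
    {LX : Fin 2 → X →ₗ[ℚ] X} {LY : Fin 2 → Y →ₗ[ℚ] Y} (F : X →ₗ[ℚ] Y)
    (h : ∀ l a, F (LX l a) = LY l (F a)) (T : Fin 2 → X) :
    psi LY (fun i => F (T i)) = F (psi LX T) := by
  simp only [psi, map_sub, h]

theorem psi_sub {X : Type*} [AddCommGroup X] [Module ℚ X] (L : Fin 2 → X →ₗ[ℚ] X)
    (T U : Fin 2 → X) : psi L (fun i => T i - U i) = psi L T - psi L U := by
  simp only [psi, map_sub]; abel

theorem psi_add {X : Type*} [AddCommGroup X] [Module ℚ X] (L : Fin 2 → X →ₗ[ℚ] X)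
    (T U : Fin 2 → X) : psi L (fun i => T i + U i) = psi L T + psi L U := by
  simp only [psi, map_add]; abel

/-- `f0` as a linear map on symbols. -/
noncomputable def F0 (J : ℕ) : R →ₗ[ℚ] R := (((J : ℚ) + 2) * Acts.cj J) • acts.T

theorem F0_apply (J : ℕ) (b : R) : F0 J b = acts.f0 J b := rfl

theorem f0_lz (l : Fin 2) (a : R) : F0 J (lz l a) = lz l (F0 J a) :=
  ((inter_lz l).f0 acts J a).symm

theorem f1_lz (l : Fin 2) (a : (Fin 2 → R) × (Fin 2 → R)) :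
    acts.f1L J (lz1 l a) = lz1 l (acts.f1L J a) :=
  Prod.ext (funext fun i => ((inter_lz l).f1_fst acts J a i).symm)
    (funext fun i => ((inter_lz l).f1_snd acts J a i).symm)

theorem f2_lz (l : Fin 2) (a : Fin 2 → Fin 2 → R) : acts.f2L (lz2 l a) = lz2 l (acts.f2L a) :=
  funext fun i => funext fun k => ((inter_lz l).T acts (a i k)).symm

theorem f3_lz (l : Fin 2) (a : R) : acts.T (lz l a) = lz l (acts.T a) :=
  ((inter_lz l).T acts a).symm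

theorem pair_f0_mem {T : Fin 2 → R} (hT : P0 c 0 (J + 1) T) :
    P0 c 1 J fun i => acts.f0 J (T i) := by
  refine ⟨fun i => f0_mem (hT.1 i), ?_⟩
  show psi lz (fun i => F0 J (T i)) ∈ _
  rw [psi_map (LX := lz) _ f0_lz]
  exact Submodule.smul_mem _ _ (S_cast rfl (by ring) (by push_cast; ring) (T_mem hT.2))

theorem pair_f1_mem {T : Fin 2 → (Fin 2 → R) × (Fin 2 → R)} (hT : P1 c 0 (J + 1) T) :
    P1 c 1 J fun i => acts.f1 J (T i) := by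
  refine ⟨fun i => f1_mem (hT.1 i), ?_⟩
  show psi lz1 (fun i => acts.f1L J (T i)) ∈ _
  rw [psi_map (LX := lz1) _ f1_lz]
  exact f1_mem_from hT.2

theorem pair_f2_mem {T : Fin 2 → Fin 2 → Fin 2 → R} (hT : P2 c 0 (J + 1) T) :
    P2 c 1 J fun i => acts.f2 (T i) := by
  refine ⟨fun i => f2_mem (hT.1 i), ?_⟩
  show psi lz2 (fun i => acts.f2L (T i)) ∈ _
  rw [psi_map (LX := lz2) _ f2_lz]
  exact f2_mem_from hT.2

theorem pair_f3_mem {T : Fin 2 → R} (hT : P3 c 0 (J + 1) T) :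
    P3 c 1 J fun i => acts.f3 (T i) := by
  refine ⟨fun i => f3_mem (hT.1 i), ?_⟩
  show psi lz (fun i => acts.T (T i)) ∈ _
  rw [psi_map (LX := lz) _ f3_lz]
  exact S_cast rfl (by ring) (by push_cast; ring) (T_mem hT.2)

variable (hc : 0 ≤ c)
include hc

theorem pair_cone_bot (hc2 : c ≤ 2) {C : Fin 2 → R} (hC : P0 c 1 J C) :
    ∃ B, P0 c 0 (J + 1) B ∧ ∃ X, P1 c 1 J X ∧
      ∀ i, acts.d1 J (X i) + acts.f0 J (B i) = C i := by
  have hp : ∀ i, ((J : ℚ) + 2)⁻¹ • app (C i) ∈ Model.H (0 + ((J + 1 : ℕ) : ℤ)) := fun i => by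
    refine Submodule.smul_mem _ _ ?_
    convert app_mem (hC.1 i) using 2; push_cast; ring
  obtain ⟨B, hB, hBψ, eB⟩ := pair_eps_surj hc le_rfl hc2 _ hp
  have hm : P0 c 1 J fun i => C i - acts.f0 J (B i) := by
    have hf := pair_f0_mem ⟨hB, hBψ⟩
    exact ⟨fun i => sub_mem (hC.1 i) (hf.1 i), by rw [psi_sub]; exact sub_mem hC.2 hf.2⟩
  obtain ⟨X, hX, hXψ, eX⟩ := pair_exact0 hc (by norm_num) _ hm.1 hm.2 fun i => by
    rw [map_sub, app_f0 (hB i), eB, smul_smul, mul_inv_cancel₀ (by positivity), one_smul,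
      sub_self]
  exact ⟨B, ⟨hB, hBψ⟩, X, ⟨hX, hXψ⟩, fun i => by rw [eX, sub_add_cancel]⟩

theorem pair_cone_low {B : Fin 2 → R} (hB : P0 c 0 (J + 1) B)
    {X : Fin 2 → (Fin 2 → R) × (Fin 2 → R)} (hX : P1 c 1 J X)
    (h : ∀ i, acts.d1 J (X i) + acts.f0 J (B i) = 0) :
    ∃ Y, P1 c 0 (J + 1) Y ∧ ∃ P, P2 c 1 J P ∧
      ∀ i, acts.d1 (J + 1) (Y i) = B i ∧ acts.d2 J (P i) - acts.f1 J (Y i) = X i := by
  have hb0 : ∀ i, app (B i) = 0 := fun i => by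
    have := congrArg app (h i)
    rw [map_add, app_d1_eq_zero (hX.1 i), zero_add, app_f0 (hB.1 i), map_zero, smul_eq_zero] at this
    exact this.resolve_left (by positivity)
  obtain ⟨Y, hY, hYψ, eY⟩ := pair_exact0 hc le_rfl _ hB.1 hB.2 hb0
  have hf := pair_f1_mem ⟨hY, hYψ⟩
  obtain ⟨P, hP, hPψ, eP⟩ := pair_exact1 hc (by norm_num) (fun i => X i + acts.f1 J (Y i))
    (fun i => add_mem (hX.1 i) (hf.1 i)) (by rw [psi_add]; exact add_mem hX.2 hf.2) fun i => by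
      show acts.d1L J (_ + _) = 0
      rw [map_add]
      show acts.d1 J (X i) + acts.d1 J _ = 0
      rw [d1_f1 (hY i), eY, h]
  exact ⟨Y, ⟨hY, hYψ⟩, P, ⟨hP, hPψ⟩, fun i => ⟨eY i, by rw [eP, add_sub_cancel_right]⟩⟩

theorem pair_cone_mid {Y : Fin 2 → (Fin 2 → R) × (Fin 2 → R)} (hY : P1 c 0 (J + 1) Y)
    {P : Fin 2 → Fin 2 → Fin 2 → R} (hP : P2 c 1 J P)
    (h0 : ∀ i, acts.d1 (J + 1) (Y i) = 0) (h : ∀ i, acts.d2 J (P i) - acts.f1 J (Y i) = 0) :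
    ∃ Q, P2 c 0 (J + 1) Q ∧ ∃ G, P3 c 1 J G ∧
      ∀ i, acts.d2 (J + 1) (Q i) = Y i ∧ acts.d3 J (G i) + acts.f2 (Q i) = P i := by
  obtain ⟨Q, hQ, hQψ, eQ⟩ := pair_exact1 hc le_rfl _ hY.1 hY.2 h0
  have hf := pair_f2_mem ⟨hQ, hQψ⟩
  obtain ⟨G, hG, hGψ, eG⟩ := pair_exact2 hc (by norm_num) (fun i => P i - acts.f2 (Q i))
    (fun i => sub_mem (hP.1 i) (hf.1 i)) (by rw [psi_sub]; exact sub_mem hP.2 hf.2) fun i => by
      show acts.d2L J (_ - _) = 0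
      rw [map_sub]
      show acts.d2 J (P i) - acts.d2 J _ = 0
      rw [d2_f2 (hQ i), eQ, h]
  exact ⟨Q, ⟨hQ, hQψ⟩, G, ⟨hG, hGψ⟩, fun i => ⟨eQ i, by rw [eG, sub_add_cancel]⟩⟩

theorem pair_cone_high {Q : Fin 2 → Fin 2 → Fin 2 → R} (hQ : P2 c 0 (J + 1) Q)
    {G : Fin 2 → R} (hG : P3 c 1 J G) (h0 : ∀ i, acts.d2 (J + 1) (Q i) = 0)
    (h : ∀ i, acts.d3 J (G i) + acts.f2 (Q i) = 0) :
    ∃ K, P3 c 0 (J + 1) K ∧ ∀ i, acts.d3 (J + 1) (K i) = Q i ∧ -acts.f3 (K i) = G i := by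
  obtain ⟨K, hK, hKψ, eK⟩ := pair_exact2 hc le_rfl _ hQ.1 hQ.2 h0
  refine ⟨K, ⟨hK, hKψ⟩, fun i => ⟨eK i, (eq_neg_of_add_eq_zero_left ?_).symm⟩⟩
  refine exact3 (add_mem (hG.1 i) (f3_mem (hK i))) ?_
  show acts.d3L J (G i + _) = 0
  rw [map_add]
  show acts.d3 J (G i) + acts.d3 J _ = 0
  rw [d3_f3 (hK i), eK, h]

end Vale.Agent.P195.Gamma.ExactA
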