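import Vale.Agent.P195.Gamma.Instance
import Vale.Agent.P195.Gamma.Left

/-!
Blocks at a vertex, rows of families on the slots, and rows of symbols: the three descriptions of
the levels are the same.
-/

namespace Vale.Agent.P195.Gamma

open MvPolynomial Model

namespace Slot

variable {J k J' k' : ℕ}

/-- The lattice conditions on the rows at an object. -/
def RowCond (J k : ℕ) (t : ℤ) : (u : Ob) → (Fin u.rk → C J k → OpFam) → Prop
  | .line a s => fun y => Lat J k (-a) (t - s) (y (0 : Fin 1))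
  | .pair c => fun y => Lat J k 0 t (y (0 : Fin 2)) ∧ Lat J k 0 t (y (1 : Fin 2)) ∧
      Lat J k (-c) (t + 1) (mlt (X 1) • y (0 : Fin 2) - mlt (X 0) • y (1 : Fin 2))

/-- Blocks at an object. -/
abbrev Blocks (u : Ob) (J k : ℕ) : Type :=
  ∀ i : I J k, Matrix (Fin u.rk) (Fin (rk (g J k i))) D

/-- The family of one row of blocks. -/
noncomputable def famOf {u : Ob} (x : Blocks u J k) (a : Fin u.rk) : C J k → OpFam :=
  (shape J k).enc fun i => x i a

theorem enc_smul (a : D) (x : Shape.Row (g J k)) :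
    (shape J k).enc (a • x) = a • (shape J k).enc x := by
  funext c m
  simp [Shape.enc, Finset.mul_sum, mul_ite]

theorem enc_sub (x x' : Shape.Row (g J k)) :
    (shape J k).enc (x - x') = (shape J k).enc x - (shape J k).enc x' := by
  funext c m
  simp only [Shape.enc, Pi.sub_apply, ← Finset.sum_sub_distrib]
  exact Finset.sum_congr rfl fun p _ => by split_ifs <;> simp

theorem fam_ext {u : Ob} {x x' : Blocks u J k} (h : ∀ a, famOf x a = famOf x' a) : x = x' := by
  funext i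
  refine Matrix.ext fun a s => ?_
  have := congrArg (fun y => (shape J k).dec y i s) (h a)
  simpa only [famOf, Shape.dec_enc] using this

theorem famOf_zero {u : Ob} (a : Fin u.rk) : famOf (fun _ => 0 : Blocks u J k) a = 0 :=
  Shape.enc_zero (shape J k)

theorem lat_enc {j b : ℤ} {r : Shape.Row (g J k)} (h : ∀ i, r i ∈ (obj (g J k i)).M j b) :
    Lat J k j b ((shape J k).enc r) :=
  lat_of_dec J k j b _ (good_enc J k r) fun i => by rw [Shape.dec_enc]; exact h i

/-- Blocks preserving the lattices give rows with the lattice conditions. -/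
theorem rowCond_of_blocks {t : ℤ} : ∀ (u : Ob) (x : Blocks u J k),
    (∀ i, x i ∈ Hom t u (obj (g J k i))) → RowCond J k t u (famOf x)
  | .line _ _, _, h => lat_enc fun i => mem_Hom_line.1 (h i)
  | .pair _, x, h => by
    refine ⟨lat_enc fun i => (mem_Hom_pair.1 (h i)).1, lat_enc fun i => (mem_Hom_pair.1 (h i)).2.1,
      ?_⟩
    show Lat J k _ _ (mlt (X 1) • (shape J k).enc _ - mlt (X 0) • (shape J k).enc _)
    rw [← enc_smul, ← enc_smul, ← enc_sub]
    refine lat_enc fun i => ?_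
    have := (mem_Hom_pair.1 (h i)).2.2
    rwa [add_comm (1 : ℤ)] at this

/-- Rows with the lattice conditions come from blocks. -/
theorem blocks_of_rowCond {t : ℤ} {u : Ob} {y : Fin u.rk → C J k → OpFam}
    (hg : ∀ a, Good J k (y a)) (hy : RowCond J k t u y) :
    ∃ x : Blocks u J k, (∀ i, x i ∈ Hom t u (obj (g J k i))) ∧ ∀ a, famOf x a = y a := by
  refine ⟨fun i => Matrix.of fun a s => (shape J k).dec (y a) i s, fun i => ?_,
    fun a => enc_dec J k _ (hg a)⟩
  cases u with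
  | line a s =>
    rw [mem_Hom_line]
    exact dec_of_lat J k _ _ _ hy i
  | pair c =>
    rw [mem_Hom_pair]
    refine ⟨dec_of_lat J k _ _ _ hy.1 i, dec_of_lat J k _ _ _ hy.2.1 i, ?_⟩
    have := dec_of_lat J k _ _ _ hy.2.2 i
    rwa [add_comm t 1] at this

/-- The effect of a formula on blocks. -/
noncomputable def mapBlk {u : Ob} (Φ : (C J k → OpFam) →ₗ[ℚ] (C J' k' → OpFam))
    (x : Blocks u J k) : Blocks u J' k' :=
  fun i' => ∑ i, x i * (shape J k).mat (shape J' k') Φ i i'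

theorem famOf_mapBlk {u : Fin 8} (Φ : (C J k → OpFam) →ₗ[ℚ] (C J' k' → OpFam)) (hΦ : LeftLin Φ)
    (hgood : ∀ y, Good J k y → Good J' k' (Φ y)) (x : Blocks (obj u) J k) (a : Fin (rk u)) :
    famOf (mapBlk Φ x) a = Φ (famOf x a) := by
  show (shape J' k').enc (rowOf (mapBlk Φ x) a) = _
  rw [show mapBlk Φ x = fun i' => ∑ i, x i * (shape J k).mat (shape J' k') Φ i i' from rfl,
    row_sum Φ hΦ]
  exact enc_dec J' k' _ (hgood _ (good_enc J k _))

theorem mapBlk_zero {u : Ob} (Φ : (C J k → OpFam) →ₗ[ℚ] (C J' k' → OpFam)) :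
    mapBlk Φ (fun _ => 0 : Blocks u J k) = fun _ => 0 := by
  funext i'
  exact Finset.sum_eq_zero fun i _ => Matrix.zero_mul _

/-! ### Symbols -/

theorem exists_opFam {d t : ℤ} {n : ℤ} (hn : 0 ≤ n) {w : OpFam} (hw : OpFam.MF d t w)
    (hq : opActs.Deg (n : ℚ) w) : ∃ f ∈ Symb.S d t n, Symb.opFam f = w := by
  classical
  lift n to ℕ using hn
  have hz : ∀ m : ℕ × ℕ, m.1 + m.2 ≠ n → w m = 0 := fun m hm =>
    (OpFam.deg_iff _ _).1 hq m (by exact_mod_cast hm)
  have hex : ∀ m : ℕ × ℕ, ∃ G ∈ Model.Sym d t, ant G = w m ∧ (w m = 0 → G = 0) := by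
    intro m
    by_cases h : w m = 0
    · exact ⟨0, zero_mem _, by rw [h, map_zero], fun _ => rfl⟩
    · obtain ⟨G, hG, e⟩ := (SetLike.ext_iff.1 (map_ant_Sym _ _) _).2 (hw m)
      exact ⟨G, hG, e, fun h' => absurd h' h⟩
  choose G hG hGe hG0 using hex
  let F : ℕ × ℕ →₀ ℕ × ℕ →₀ Pol :=
    Finsupp.onFinset (Finset.range (n + 1) ×ˢ Finset.range (n + 1)) G fun m hm => by
      have : m.1 + m.2 = n := by
        by_contra h; exact hm (hG0 m (hz m h))
      simp only [Finset.mem_product, Finset.mem_range]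
      omega
  refine ⟨Symb.join F, Symb.join_mem (fun m => hG m) (fun m hm => hG0 m (hz m ?_)), ?_⟩
  · exact_mod_cast hm
  · funext m
    rw [Symb.opFam_apply, Symb.op_apply, Symb.split_join, ← hGe]
    rfl

theorem mf_opFam {d t n : ℤ} {f : Symb.R} (hf : f ∈ Symb.S d t n) :
    OpFam.MF d t (Symb.opFam f) := fun m => Symb.op_mem hf m

theorem deg_opFam {d t n : ℤ} {f : Symb.R} (hf : f ∈ Symb.S d t n) :
    opActs.Deg (n : ℚ) (Symb.opFam f) :=
  (OpFam.deg_iff _ _).2 fun _ hm => Symb.op_eq_zero hf fun h => hm (by exact_mod_cast h)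

theorem opFam_lz (l : Fin 2) (f : Symb.R) :
    Symb.opFam (Symb.lz l f) = mlt (X l) • Symb.opFam f :=
  _root_.funext fun m => Symb.op_lz l f m

theorem opFam_T (f : Symb.R) : Symb.opFam (Symb.T f) = opActs.T (Symb.opFam f) := by
  rw [Symb.T_apply, map_add, Symb.opFam_Z, Symb.opFam_Z, Symb.opFam_P, Symb.opFam_P]
  rfl

/-- A description of one position by symbols. -/
structure SymPos (J k : ℕ) {X : Type} [AddCommGroup X] [Module ℚ X] (lx : Fin 2 → X →ₗ[ℚ] X)
    (P : ℤ → ℤ → Submodule ℚ X) (Ψ : X →ₗ[ℚ] (C J k → OpFam)) : Prop where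
  comm : ∀ l x, Ψ (lx l x) = mlt (MvPolynomial.X l) • Ψ x
  inj : Function.Injective Ψ
  fwd : ∀ {d b : ℤ} {x}, x ∈ P d b → Good J k (Ψ x) ∧ Lat J k d b (Ψ x)
  back : ∀ {d b : ℤ} {y}, Good J k y → Lat J k d b y → ∃ x ∈ P d b, Ψ x = y

namespace SymPos

variable {X : Type} [AddCommGroup X] [Module ℚ X] {lx : Fin 2 → X →ₗ[ℚ] X}
  {P : ℤ → ℤ → Submodule ℚ X} {Ψ : X →ₗ[ℚ] (C J k → OpFam)}

/-- Rows with the lattice conditions are rows of symbols. -/
theorem rows_of_blocks (H : SymPos J k lx P Ψ) {t : ℤ} {u : Ob} {x : Blocks u J k}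
    (hx : ∀ i, x i ∈ Hom t u (obj (g J k i))) :
    ∃ f, Symb.Rows lx P t u f ∧ ∀ a, Ψ (f a) = famOf x a := by
  have hc := rowCond_of_blocks u x hx
  cases u with
  | line a s =>
    obtain ⟨f, hf, e⟩ := H.back (good_enc J k _) hc
    refine ⟨fun _ => f, hf, fun i => ?_⟩
    obtain rfl : i = (0 : Fin 1) := Subsingleton.elim (α := Fin 1) _ _
    exact e
  | pair c =>
    obtain ⟨f0, h0, e0⟩ := H.back (good_enc J k _) hc.1
    obtain ⟨f1, h1, e1⟩ := H.back (good_enc J k _) hc.2.1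
    have hgood : Good J k (Ψ (lx 1 f0 - lx 0 f1)) := by
      rw [map_sub, H.comm, H.comm, e0, e1]
      show Good J k (mlt (MvPolynomial.X 1) • (shape J k).enc _ -
        mlt (MvPolynomial.X 0) • (shape J k).enc _)
      rw [← enc_smul, ← enc_smul, ← enc_sub]
      exact good_enc J k _
    obtain ⟨z, hz, ez⟩ := H.back hgood (d := -(c : ℤ)) (b := t + 1)
      (by rw [map_sub, H.comm, H.comm, e0, e1]; exact hc.2.2)
    refine ⟨![f0, f1], ⟨h0, h1, ?_⟩, fun i => ?_⟩
    · show lx 1 f0 - lx 0 f1 ∈ _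
      rwa [← H.inj ez]
    · fin_cases i
      exacts [e0, e1]

/-- Rows of symbols are rows of blocks. -/
theorem blocks_of_rows (H : SymPos J k lx P Ψ) {t : ℤ} {u : Ob} {f : Fin u.rk → X}
    (hf : Symb.Rows lx P t u f) :
    ∃ x : Blocks u J k, (∀ i, x i ∈ Hom t u (obj (g J k i))) ∧ ∀ a, famOf x a = Ψ (f a) := by
  cases u with
  | line a s =>
    refine blocks_of_rowCond (fun i => ?_) (H.fwd hf).2
    obtain rfl : i = (0 : Fin 1) := Subsingleton.elim (α := Fin 1) _ _
    exact (H.fwd hf).1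
  | pair c =>
    refine blocks_of_rowCond (fun i => ?_) ⟨(H.fwd hf.1).2, (H.fwd hf.2.1).2, ?_⟩
    · fin_cases i
      exacts [(H.fwd hf.1).1, (H.fwd hf.2.1).1]
    · have := (H.fwd hf.2.2).2
      rwa [map_sub, H.comm, H.comm] at this

end SymPos

end Slot

end Vale.Agent.P195.Gamma
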