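import Vale.Agent.P195.Gamma.ExactA.Bridge
import Vale.Agent.P195.Gamma.ExactA.PairCone

/-!
The exact cones seen from a vertex of the first colour, on symbols and on families of operators.
-/

namespace Vale.Agent.P195.Gamma.ExactA

open MvPolynomial Model Symb

/-- The objects of the first colour. -/
def Av (u : Ob) : Prop := (∃ a : ℕ, a ≤ 2 ∧ u = .line a 0) ∨ ∃ c : ℕ, c ≤ 2 ∧ u = .pair c

theorem av_obj : ∀ u : Fin 8, isA u → Av (obj u)
  | 0, _ => Or.inl ⟨0, by norm_num, rfl⟩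
  | 1, _ => Or.inl ⟨1, by norm_num, rfl⟩
  | 2, _ => Or.inl ⟨2, le_rfl, rfl⟩
  | 3, _ => Or.inr ⟨1, by norm_num, rfl⟩
  | 4, _ => Or.inr ⟨2, le_rfl, rfl⟩
  | 5, h => absurd h (by decide)
  | 6, h => absurd h (by decide)
  | 7, h => absurd h (by decide)

/-- Rows at an object in a graded family of spaces with a pair of left multiplications. -/
def On {X : Type*} [AddCommGroup X] [Module ℚ X] (M : ℤ → ℤ → Submodule ℚ X)
    (L : Fin 2 → X →ₗ[ℚ] X) (t : ℤ) : (u : Ob) → (Fin u.rk → X) → Prop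
  | .line a _ => fun x => x (0 : Fin 1) ∈ M a t
  | .pair c => fun x => (∀ i : Fin 2, x i ∈ M 0 t) ∧ psi L x ∈ M c (t + 1)

/-- Rows in the last piece. -/
abbrev Q0 (t : ℤ) (j : ℕ) (u : Ob) : (Fin u.rk → R) → Prop := On (fun a b => M0 a b j) lz t u

/-- Rows in the first piece. -/
abbrev Q1 (t : ℤ) (j : ℕ) (u : Ob) : (Fin u.rk → (Fin 2 → R) × (Fin 2 → R)) → Prop :=
  On (fun a b => M1 a b j) lz1 t u

/-- Rows in the middle piece. -/
abbrev Q2 (t : ℤ) (j : ℕ) (u : Ob) : (Fin u.rk → Fin 2 → Fin 2 → R) → Prop :=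
  On (fun a b => M2 a b j) lz2 t u

/-- Rows in the third piece. -/
abbrev Q3 (t : ℤ) (j : ℕ) (u : Ob) : (Fin u.rk → R) → Prop := On (fun a b => M3 a b j) lz t u

variable {u : Ob} {J : ℕ}

theorem row_bot (hu : Av u) {C : Fin u.rk → R} (hC : Q0 1 J u C) :
    ∃ B, Q0 0 (J + 1) u B ∧ ∃ X, Q1 1 J u X ∧
      ∀ i, Symb.acts.d1 J (X i) + Symb.acts.f0 J (B i) = C i := by
  rcases hu with ⟨a, ha, rfl⟩ | ⟨c, hc, rfl⟩
  · obtain ⟨b, hb, x, hx, e⟩ := cone_bot (s := (a : ℤ)) (by omega) hC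
    exact ⟨fun _ => b, hb, fun _ => x, hx, fun i => by
      rw [show i = (0 : Fin 1) from Subsingleton.elim (α := Fin 1) _ _]; exact e⟩
  · exact pair_cone_bot (c := (c : ℤ)) (by omega) (by omega) hC

theorem row_low (hu : Av u) {B : Fin u.rk → R} (hB : Q0 0 (J + 1) u B)
    {X : Fin u.rk → (Fin 2 → R) × (Fin 2 → R)} (hX : Q1 1 J u X)
    (h : ∀ i, Symb.acts.d1 J (X i) + Symb.acts.f0 J (B i) = 0) :
    ∃ Y, Q1 0 (J + 1) u Y ∧ ∃ P, Q2 1 J u P ∧ ∀ i,
      Symb.acts.d1 (J + 1) (Y i) = B i ∧ Symb.acts.d2 J (P i) - Symb.acts.f1 J (Y i) = X i := by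
  rcases hu with ⟨a, ha, rfl⟩ | ⟨c, hc, rfl⟩
  · obtain ⟨y, hy, p, hp, e⟩ := cone_low (s := (a : ℤ)) hB hX (h (0 : Fin 1))
    exact ⟨fun _ => y, hy, fun _ => p, hp, fun i => by
      rw [show i = (0 : Fin 1) from Subsingleton.elim (α := Fin 1) _ _]; exact e⟩
  · exact pair_cone_low (c := (c : ℤ)) (by omega) hB hX h

theorem row_mid (hu : Av u) {Y : Fin u.rk → (Fin 2 → R) × (Fin 2 → R)}
    (hY : Q1 0 (J + 1) u Y) {P : Fin u.rk → Fin 2 → Fin 2 → R} (hP : Q2 1 J u P)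
    (h0 : ∀ i, Symb.acts.d1 (J + 1) (Y i) = 0)
    (h : ∀ i, Symb.acts.d2 J (P i) - Symb.acts.f1 J (Y i) = 0) :
    ∃ Q, Q2 0 (J + 1) u Q ∧ ∃ G, Q3 1 J u G ∧ ∀ i,
      Symb.acts.d2 (J + 1) (Q i) = Y i ∧ Symb.acts.d3 J (G i) + Symb.acts.f2 (Q i) = P i := by
  rcases hu with ⟨a, ha, rfl⟩ | ⟨c, hc, rfl⟩
  · obtain ⟨q, hq, g, hg, e⟩ := cone_mid (s := (a : ℤ)) hY hP (h0 (0 : Fin 1)) (h (0 : Fin 1))
    exact ⟨fun _ => q, hq, fun _ => g, hg, fun i => by
      rw [show i = (0 : Fin 1) from Subsingleton.elim (α := Fin 1) _ _]; exact e⟩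
  · exact pair_cone_mid (c := (c : ℤ)) (by omega) hY hP h0 h

theorem row_high (hu : Av u) {Q : Fin u.rk → Fin 2 → Fin 2 → R} (hQ : Q2 0 (J + 1) u Q)
    {G : Fin u.rk → R} (hG : Q3 1 J u G) (h0 : ∀ i, Symb.acts.d2 (J + 1) (Q i) = 0)
    (h : ∀ i, Symb.acts.d3 J (G i) + Symb.acts.f2 (Q i) = 0) :
    ∃ K, Q3 0 (J + 1) u K ∧
      ∀ i, Symb.acts.d3 (J + 1) (K i) = Q i ∧ -Symb.acts.f3 (K i) = G i := by
  rcases hu with ⟨a, ha, rfl⟩ | ⟨c, hc, rfl⟩
  · obtain ⟨k, hk, e⟩ := cone_high (s := (a : ℤ)) hQ hG (h0 (0 : Fin 1)) (h (0 : Fin 1))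
    exact ⟨fun _ => k, hk, fun i => by
      rw [show i = (0 : Fin 1) from Subsingleton.elim (α := Fin 1) _ _]; exact e⟩
  · exact pair_cone_high (c := (c : ℤ)) (by omega) hQ hG h0 h

theorem row_top (hu : Av u) {K : Fin u.rk → R} (hK : Q3 0 (J + 1) u K)
    (h : ∀ i, Symb.acts.d3 (J + 1) (K i) = 0) : K = 0 := by
  rcases hu with ⟨a, ha, rfl⟩ | ⟨c, hc, rfl⟩
  · funext i
    rw [show i = (0 : Fin 1) from Subsingleton.elim (α := Fin 1) _ _]
    exact cone_top hK (h (0 : Fin 1))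
  · funext i
    exact cone_top (hK.1 i) (h i)

/-! ### Families of operators -/

/-- Families in the lattice of a position at level `t`, seen from an object. -/
def FamOn (t : ℤ) (J k : ℕ) : (u : Ob) → (Fin u.rk → Slot.C J k → OpFam) → Prop
  | .line a _ => fun y => Slot.Good J k (y (0 : Fin 1)) ∧ Slot.Lat J k (-a) t (y (0 : Fin 1))
  | .pair c => fun y => (∀ i : Fin 2, Slot.Good J k (y i) ∧ Slot.Lat J k 0 t (y i)) ∧
      Slot.Lat J k (-c) (t + 1)
        (mlt (X 1) • y (0 : Fin 2) - mlt (X 0) • y (1 : Fin 2))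

theorem opFam_lz (l : Fin 2) (f : R) : opFam (lz l f) = mlt (X l) • opFam f :=
  _root_.funext fun m => op_lz l f m

theorem good_comb {J k : ℕ} {y0 y1 : Slot.C J k → OpFam} (h0 : Slot.Good J k y0)
    (h1 : Slot.Good J k y1) (a b : D) : Slot.Good J k (a • y0 - b • y1) := fun c => by
  show opActs.Deg _ (a • y0 c - b • y1 c)
  rw [OpFam.smul_eq_lmul, OpFam.smul_eq_lmul]
  exact ((lmulFam_inter a).deg opActs (h0 c)).sub opActs ((lmulFam_inter b).deg opActs (h1 c))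

/-- Symbols and families correspond, one position at a time. -/
structure Corr {X : Type} [AddCommGroup X] [Module ℚ X] (J k : ℕ)
    (M : ℤ → ℤ → Submodule ℚ X) (L : Fin 2 → X →ₗ[ℚ] X) (e : X → Slot.C J k → OpFam) : Prop where
  lat : ∀ {a t : ℤ} {x : X}, x ∈ M a t → Slot.Lat J k (-a) t (e x) ∧ Slot.Good J k (e x)
  surj : ∀ {a t : ℤ} {y : Slot.C J k → OpFam}, Slot.Lat J k (-a) t y → Slot.Good J k y →
    ∃ x ∈ M a t, e x = y
  inj : Function.Injective e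
  sub : ∀ x x', e (x - x') = e x - e x'
  left : ∀ l x, e (L l x) = mlt (MvPolynomial.X l) • e x

variable {X : Type} [AddCommGroup X] [Module ℚ X] {k : ℕ} {M : ℤ → ℤ → Submodule ℚ X}
  {L : Fin 2 → X →ₗ[ℚ] X} {e : X → Slot.C J k → OpFam}

theorem Corr.psi_eq (C : Corr J k M L e) (x : Fin 2 → X) :
    e (psi L x) = mlt (MvPolynomial.X 1) • e (x 0) - mlt (MvPolynomial.X 0) • e (x 1) := by
  rw [psi, C.sub, C.left, C.left]

theorem Corr.famOn (C : Corr J k M L e) {t : ℤ} {x : Fin u.rk → X} (hx : On M L t u x) :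
    FamOn t J k u fun i => e (x i) := by
  cases u with
  | line a s => exact ⟨(C.lat hx).2, (C.lat hx).1⟩
  | pair c =>
    refine ⟨fun i => ⟨(C.lat (hx.1 i)).2, by simpa using (C.lat (hx.1 i)).1⟩, ?_⟩
    show Slot.Lat J k (-c) (t + 1) _
    rw [← C.psi_eq]
    exact (C.lat hx.2).1

theorem Corr.exists_on (C : Corr J k M L e) {t : ℤ} {y : Fin u.rk → Slot.C J k → OpFam}
    (hy : FamOn t J k u y) : ∃ x, On M L t u x ∧ ∀ i, e (x i) = y i := by
  cases u with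
  | line a s =>
    obtain ⟨x, hx, he⟩ := C.surj hy.2 hy.1
    exact ⟨fun _ => x, hx, fun i => by
      rw [show i = (0 : Fin 1) from Subsingleton.elim (α := Fin 1) _ _]; exact he⟩
  | pair c =>
    have h0 : ∀ i : Fin 2, ∃ x ∈ M 0 t, e x = y i := fun i =>
      C.surj (a := 0) (by simpa using (hy.1 i).2) (hy.1 i).1
    choose x hx he using h0
    obtain ⟨w, hw, ew⟩ := C.surj (a := (c : ℤ)) hy.2 (good_comb (hy.1 _).1 (hy.1 _).1 _ _)
    refine ⟨x, ⟨hx, ?_⟩, he⟩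
    have hp : psi L x = w := C.inj (by rw [C.psi_eq, he, he, ew])
    rw [hp]
    exact hw

theorem corr1 (j : ℕ) : Corr (j + 1) 1 (fun a b => M0 a b j) lz (e1 (j := j)) where
  lat h := e1_lat h
  surj h h' := exists_e1 h h'
  inj := e1_injective
  sub x x' := _root_.funext fun _ => map_sub opFam x x'
  left l x := _root_.funext fun _ => opFam_lz l x

theorem corr2 (j : ℕ) : Corr (j + 1) 2 (fun a b => M1 a b j) lz1 (e2 (j := j)) where
  lat h := e2_lat h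
  surj h h' := exists_e2 h h'
  inj := e2_injective
  sub x x' := _root_.funext fun c => by
    rcases c with i | i
    exacts [map_sub opFam (x.1 i) (x'.1 i), map_sub opFam (x.2 i) (x'.2 i)]
  left l x := _root_.funext fun c => by
    rcases c with i | i
    exacts [opFam_lz l (x.1 i), opFam_lz l (x.2 i)]

theorem corr3 (j : ℕ) : Corr (j + 1) 3 (fun a b => M2 a b j) lz2 (e3 (j := j)) where
  lat h := e3_lat h
  surj h h' := exists_e3 h h'
  inj := e3_injective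
  sub x x' := _root_.funext fun c => map_sub opFam (x c.1 c.2) (x' c.1 c.2)
  left l x := _root_.funext fun c => opFam_lz l (x c.1 c.2)

theorem corr4 (j : ℕ) : Corr (j + 1) 4 (fun a b => M3 a b j) lz (e4 (j := j)) where
  lat h := e4_lat h
  surj h h' := exists_e4 h h'
  inj := e4_injective
  sub x x' := _root_.funext fun _ => map_sub opFam x x'
  left l x := _root_.funext fun _ => opFam_lz l x

end Vale.Agent.P195.Gamma.ExactA
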